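import Crest.Agent.R232.Basic

set_option autoImplicit false
open Finset

namespace Crest.Agent.R232

/-- indicator that `|x|` is above the dyadic level `K / 2 ^ i` -/
noncomputable def ind (K : ℝ) (i : ℕ) (x : ℝ) : ℝ := if K / 2 ^ i ≤ |x| then 1 else 0

/-- trapezoidal averaging of a sequence -/
noncomputable def trap (m : ℕ) (γ : ℕ → ℝ) (ℓ : ℕ) : ℝ :=
  (m : ℝ)⁻¹ * ∑ i ∈ range m, (γ (ℓ + (2 * m + i)) - γ (ℓ + i))

/-- the band cut-off -/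
noncomputable def phi (K : ℝ) (m ℓ : ℕ) (x : ℝ) : ℝ := trap m (fun i => ind K i x) ℓ

/-- total mass of the band -/
noncomputable def SS (p : ℝ) (m : ℕ) : ℝ :=
  ∑ a ∈ range (3 * m), (trap m (fun i => if 3 * m ≤ i then 1 else 0) a) ^ p

lemma level_anti {K : ℝ} (hK : 0 < K) {i j : ℕ} (h : i ≤ j) : K / 2 ^ j ≤ K / 2 ^ i :=
  div_le_div_of_nonneg_left hK.le (by positivity) (pow_le_pow_right₀ (by norm_num) h)

lemma trap_mono_bounds {m : ℕ} (hm : 1 ≤ m) {γ : ℕ → ℝ} (hγ : Monotone γ) (h0 : ∀ i, 0 ≤ γ i)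
    (h1 : ∀ i, γ i ≤ 1) (ℓ : ℕ) : 0 ≤ trap m γ ℓ ∧ trap m γ ℓ ≤ 1 := by
  have hm0 : (0:ℝ) < m := by exact_mod_cast hm
  constructor
  · exact mul_nonneg (inv_pos.2 hm0).le
      (sum_nonneg fun i _ => sub_nonneg.2 (hγ (by omega)))
  · unfold trap
    rw [inv_mul_le_iff₀ hm0]
    calc _ ≤ ∑ _i ∈ range m, (1:ℝ) := sum_le_sum fun i _ => by
          have := h0 (ℓ + i); have := h1 (ℓ + (2 * m + i)); linarith
      _ = _ := by simp

lemma ind_mono {K : ℝ} (hK : 0 < K) (x : ℝ) : Monotone (fun i => ind K i x) := by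
  intro i j h
  simp only [ind]
  by_cases hi : K / 2 ^ i ≤ |x|
  · rw [if_pos hi, if_pos ((level_anti hK h).trans hi)]
  · rw [if_neg hi]; split_ifs <;> norm_num

lemma phi_bounds {K : ℝ} (hK : 0 < K) {m : ℕ} (hm : 1 ≤ m) (ℓ : ℕ) (x : ℝ) :
    0 ≤ phi K m ℓ x ∧ phi K m ℓ x ≤ 1 :=
  trap_mono_bounds hm (ind_mono hK x) (fun i => by simp only [ind]; split_ifs <;> norm_num)
    (fun i => by simp only [ind]; split_ifs <;> norm_num) ℓ

lemma phi_support {K : ℝ} (hK : 0 < K) {m ℓ : ℕ} {x : ℝ} (h : phi K m ℓ x ≠ 0) :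
    K / 2 ^ (ℓ + 3 * m) ≤ |x| ∧ |x| < K / 2 ^ ℓ := by
  unfold phi trap at h
  obtain ⟨i, hi, hne⟩ := exists_ne_zero_of_sum_ne_zero (right_ne_zero_of_mul h)
  rw [mem_range] at hi
  simp only [ind] at hne
  by_cases h1 : K / 2 ^ (ℓ + i) ≤ |x|
  · rw [if_pos h1, if_pos ((level_anti hK (by omega)).trans h1)] at hne
    simp at hne
  · by_cases h2 : K / 2 ^ (ℓ + (2 * m + i)) ≤ |x|
    · exact ⟨(level_anti hK (by omega)).trans h2,
        (not_le.1 h1).trans_le (level_anti hK (by omega))⟩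
    · rw [if_neg h1, if_neg h2] at hne
      simp at hne

lemma SS_bounds {p : ℝ} (hp : 0 ≤ p) {m : ℕ} (hm : 1 ≤ m) : (m : ℝ) ≤ SS p m ∧ SS p m ≤ 3 * m := by
  have hm0 : (0:ℝ) < m := by exact_mod_cast hm
  have hb : ∀ a, 0 ≤ trap m (fun i => if 3 * m ≤ i then (1:ℝ) else 0) a ∧
      trap m (fun i => if 3 * m ≤ i then (1:ℝ) else 0) a ≤ 1 := by
    intro a
    refine trap_mono_bounds hm ?_ (fun i => by split_ifs <;> norm_num)
      (fun i => by split_ifs <;> norm_num) a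
    intro i j h
    simp only
    by_cases hi : 3 * m ≤ i
    · rw [if_pos hi, if_pos (hi.trans h)]
    · rw [if_neg hi]; split_ifs <;> norm_num
  constructor
  · have h1 : ∑ a ∈ Ico m (2 * m), (trap m (fun i => if 3 * m ≤ i then (1:ℝ) else 0) a) ^ p ≤
        SS p m := by
      refine sum_le_sum_of_subset_of_nonneg (fun a ha => ?_)
        (fun a _ _ => Real.rpow_nonneg (hb a).1 _)
      rw [mem_Ico] at ha; rw [mem_range]; omega
    have h2 : ∀ a ∈ Ico m (2 * m),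
        (trap m (fun i => if 3 * m ≤ i then (1:ℝ) else 0) a) ^ p = 1 := by
      intro a ha
      rw [mem_Ico] at ha
      have : trap m (fun i => if 3 * m ≤ i then (1:ℝ) else 0) a = 1 := by
        unfold trap
        rw [sum_congr rfl (g := fun _ => (1:ℝ))]
        · simp [hm0.ne']
        · intro i hi
          rw [mem_range] at hi
          simp only
          rw [if_pos (by omega), if_neg (by omega)]; norm_num
      rw [this, Real.one_rpow]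
    rw [sum_congr rfl h2] at h1
    simp only [sum_const, Nat.card_Ico, nsmul_eq_mul, mul_one] at h1
    rwa [show 2 * m - m = m by omega] at h1
  · calc SS p m ≤ ∑ _a ∈ range (3 * m), (1:ℝ) :=
          sum_le_sum fun a _ => Real.rpow_le_one (hb a).1 (hb a).2 hp
      _ = _ := by simp

lemma main_mass_aux {p τ : ℝ} (hp : 0 < p) (hτ : 1 < τ) {m Λ : ℕ} {x : ℝ} (hx1 : |x| ≤ 1)
    (hΛ : τ * 2 ^ (3 * m) / 2 ^ Λ ≤ |x|) :
    ∑ ℓ ∈ range Λ, phi (τ * 2 ^ (3 * m)) m ℓ x ^ p = SS p m := by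
  set K := τ * 2 ^ (3 * m) with hKdef
  have hK : 0 < K := by positivity
  classical
  have hex : ∃ i, K / 2 ^ i ≤ |x| := ⟨Λ, hΛ⟩
  set i0 := Nat.find hex with hi0
  have hi0Λ : i0 ≤ Λ := Nat.find_min' hex hΛ
  have hiff : ∀ i, K / 2 ^ i ≤ |x| ↔ i0 ≤ i := fun i =>
    ⟨fun h => Nat.find_min' hex h, fun h => (level_anti hK h).trans (Nat.find_spec hex)⟩
  have h3m : 3 * m ≤ i0 := by
    by_contra hcon
    have h1 := (hiff (3 * m)).2 (by omega)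
    rw [hKdef, mul_div_assoc, div_self (by positivity)] at h1
    linarith
  obtain ⟨N, hN⟩ := Nat.exists_eq_add_of_le' h3m
  have h1 : ∑ ℓ ∈ Ico N (N + 3 * m), phi K m ℓ x ^ p = ∑ ℓ ∈ range Λ, phi K m ℓ x ^ p := by
    refine sum_subset (fun a ha => ?_) (fun a _ ha => ?_)
    · rw [mem_Ico] at ha; rw [mem_range]; omega
    · have : phi K m a x = 0 := by
        by_contra hne
        obtain ⟨h2, h3⟩ := phi_support hK hne
        rw [hiff] at h2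
        have h4 : ¬ i0 ≤ a := by rw [← hiff]; exact not_le.2 h3
        exact ha (mem_Ico.2 ⟨by omega, by omega⟩)
      rw [this, Real.zero_rpow hp.ne']
  rw [← h1, sum_Ico_eq_sum_range, show N + 3 * m - N = 3 * m by omega]
  refine sum_congr rfl fun a _ => ?_
  congr 1
  unfold phi trap
  congr 1
  refine sum_congr rfl fun i _ => ?_
  simp only [ind, hiff]
  congr 1 <;> exact if_congr (by omega) rfl rfl

lemma main_mass {p τ : ℝ} (hp : 0 < p) (hτ : 1 < τ) {m Λ : ℕ} (hm : 1 ≤ m) {x : ℝ} (hx1 : |x| ≤ 1)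
    (hΛ : x ≠ 0 → τ * 2 ^ (3 * m) / 2 ^ Λ ≤ |x|) :
    ∑ ℓ ∈ range Λ, |x * phi (τ * 2 ^ (3 * m)) m ℓ x| ^ p = SS p m * |x| ^ p := by
  by_cases hx : x = 0
  · simp [hx, Real.zero_rpow hp.ne']
  · rw [← main_mass_aux hp hτ hx1 (hΛ hx), sum_mul]
    refine sum_congr rfl fun ℓ _ => ?_
    have := (phi_bounds (K := τ * 2 ^ (3 * m)) (by positivity) hm ℓ x).1
    rw [abs_mul, abs_of_nonneg this, Real.mul_rpow (abs_nonneg _) this, mul_comm]

lemma band_lower {τ : ℝ} (hτ : 0 < τ) {m ℓ : ℕ} {x : ℝ}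
    (h : x * phi (τ * 2 ^ (3 * m)) m ℓ x ≠ 0) : τ / 2 ^ ℓ ≤ |x| := by
  have := (phi_support (by positivity) (right_ne_zero_of_mul h)).1
  rwa [pow_add, mul_div_mul_right _ _ (by positivity)] at this

lemma band_upper {K : ℝ} (hK : 0 < K) {m : ℕ} (hm : 1 ≤ m) (ℓ : ℕ) (x : ℝ) :
    |2 ^ ℓ * (x * phi K m ℓ x)| ≤ K := by
  by_cases h : phi K m ℓ x = 0
  · simp [h, hK.le]
  · have h1 := (phi_support hK h).2
    have h2 := phi_bounds hK hm ℓ x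
    rw [lt_div_iff₀ (by positivity)] at h1
    rw [abs_mul, abs_mul, abs_of_nonneg h2.1, abs_of_pos (show (0:ℝ) < 2 ^ ℓ by positivity)]
    have h3 : 0 ≤ 2 ^ ℓ * |x| := by positivity
    nlinarith

open Classical in
lemma band_sparse {p : ℝ} (hp : 0 < p) : ∃ C : ℝ, 1 ≤ C ∧ ∀ (τ : ℝ), 0 < τ → ∀ (m Λ : ℕ) (x : ℝ),
    ∑ ℓ ∈ range Λ, (if 2 ^ ℓ * (x * phi (τ * 2 ^ (3 * m)) m ℓ x) = 0 then 0 else
      ((1:ℝ) / 2 ^ ℓ) ^ p) ≤ C / τ ^ p * |x| ^ p := by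
  obtain ⟨C, hC, h⟩ := geoA hp
  refine ⟨C, hC, fun τ hτ m Λ x => ?_⟩
  have h1 := h τ |x| hτ (abs_nonneg x) Λ
  have hτp : 0 < τ ^ p := by positivity
  rw [div_mul_eq_mul_div, le_div_iff₀ hτp, sum_mul]
  refine le_trans (sum_le_sum fun ℓ _ => ?_) h1
  by_cases h2 : 2 ^ ℓ * (x * phi (τ * 2 ^ (3 * m)) m ℓ x) = 0
  · rw [if_pos h2, zero_mul]; split_ifs <;> positivity
  · rw [if_neg h2, if_pos (band_lower hτ (right_ne_zero_of_mul h2)),
      ← Real.mul_rpow (by positivity) hτ.le]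
    apply le_of_eq; congr 1; ring

lemma band_var {p : ℝ} (hp : 2 < p) : ∃ C : ℝ, 1 ≤ C ∧ ∀ (τ : ℝ), 0 < τ → ∀ (m Λ : ℕ), 1 ≤ m →
    ∀ x : ℝ, ∑ ℓ ∈ range Λ, ((1:ℝ) / 2 ^ ℓ) ^ p * (2 ^ ℓ * (x * phi (τ * 2 ^ (3 * m)) m ℓ x)) ^ 2 ≤
      C / τ ^ (p - 2) * |x| ^ p := by
  obtain ⟨C, hC, h⟩ := geoA (show 0 < p - 2 by linarith)
  refine ⟨C, hC, fun τ hτ m Λ hm x => ?_⟩
  have h1 := mul_le_mul_of_nonneg_right (h τ |x| hτ (abs_nonneg x) Λ) (sq_nonneg x)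
  have hτp : 0 < τ ^ (p - 2) := by positivity
  have h3 : |x| ^ (p - 2) * x ^ 2 = |x| ^ p := by
    rw [← sq_abs, ← Real.rpow_natCast, ← Real.rpow_add' (abs_nonneg _) (by push_cast; linarith)]
    congr 1; push_cast; ring
  rw [mul_assoc, h3, sum_mul] at h1
  rw [div_mul_eq_mul_div, le_div_iff₀ hτp, sum_mul]
  refine le_trans (sum_le_sum fun ℓ _ => ?_) h1
  by_cases h2 : x * phi (τ * 2 ^ (3 * m)) m ℓ x = 0
  · rw [h2]
    simp only [mul_zero, ne_eq, OfNat.ofNat_ne_zero, not_false_eq_true, zero_pow, zero_mul]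
    split_ifs <;> positivity
  · rw [if_pos (band_lower hτ h2)]
    have h4 : ((1:ℝ) / 2 ^ ℓ) ^ p * (2 ^ ℓ) ^ 2 * τ ^ (p - 2) = (τ / 2 ^ ℓ) ^ (p - 2) := by
      have h5 : ((1:ℝ) / 2 ^ ℓ) ^ p = ((1:ℝ) / 2 ^ ℓ) ^ (p - 2) * (1 / 2 ^ ℓ) ^ 2 := by
        rw [← Real.rpow_natCast _ 2, ← Real.rpow_add (by positivity)]
        congr 1; push_cast; ring
      rw [h5, show τ / 2 ^ ℓ = 1 / 2 ^ ℓ * τ by ring, Real.mul_rpow (by positivity) hτ.le]
      field_simp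
    have h6 := phi_bounds (K := τ * 2 ^ (3 * m)) (by positivity) hm ℓ x
    have h7 : (x * phi (τ * 2 ^ (3 * m)) m ℓ x) ^ 2 ≤ x ^ 2 := by
      rw [mul_pow]
      exact mul_le_of_le_one_right (sq_nonneg x) (pow_le_one₀ h6.1 h6.2)
    rw [← h4, mul_pow]
    have h8 : 0 ≤ ((1:ℝ) / 2 ^ ℓ) ^ p * (2 ^ ℓ) ^ 2 * τ ^ (p - 2) := by positivity
    nlinarith

lemma abs_rpow_mul_sq {p : ℝ} (hp : 0 < p) (x : ℝ) : |x| ^ (p - 2) * x ^ 2 = |x| ^ p := by
  rw [← sq_abs, ← Real.rpow_natCast, ← Real.rpow_add' (abs_nonneg _) (by push_cast; linarith)]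
  congr 1; push_cast; ring

lemma abs_rpow_mul_abs {p : ℝ} (hp : 0 < p) (x : ℝ) : |x| ^ (p - 1) * |x| = |x| ^ p := by
  nth_rewrite 2 [← Real.rpow_one |x|]
  rw [← Real.rpow_add' (abs_nonneg _) (by linarith)]
  congr 1; ring

lemma top_sq {p : ℝ} (hp : 2 < p) : ∃ C : ℝ, 1 ≤ C ∧ ∀ (K : ℝ), 0 < K → ∀ (N : ℕ) (x : ℝ),
    ∑ i ∈ range N, (K / 2 ^ i) ^ (p - 2) * (x * ind K i x) ^ 2 ≤ C * |x| ^ p := by
  obtain ⟨C, hC, h⟩ := geoA (show 0 < p - 2 by linarith)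
  refine ⟨C, hC, fun K hK N x => ?_⟩
  have h1 := mul_le_mul_of_nonneg_right (h K |x| hK (abs_nonneg x) N) (sq_nonneg x)
  rw [mul_assoc, abs_rpow_mul_sq (by linarith), sum_mul] at h1
  refine le_trans (le_of_eq (sum_congr rfl fun i _ => ?_)) h1
  simp only [ind]; split_ifs <;> simp

lemma top_abs {p : ℝ} (hp : 1 < p) : ∃ C : ℝ, 1 ≤ C ∧ ∀ (K : ℝ), 0 < K → ∀ (N : ℕ) (x : ℝ),
    ∑ i ∈ range N, (K / 2 ^ i) ^ (p - 1) * |x * ind K i x| ≤ C * |x| ^ p := by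
  obtain ⟨C, hC, h⟩ := geoA (show 0 < p - 1 by linarith)
  refine ⟨C, hC, fun K hK N x => ?_⟩
  have h1 := mul_le_mul_of_nonneg_right (h K |x| hK (abs_nonneg x) N) (abs_nonneg x)
  rw [mul_assoc, abs_rpow_mul_abs (by linarith), sum_mul] at h1
  refine le_trans (le_of_eq (sum_congr rfl fun i _ => ?_)) h1
  simp only [ind]; split_ifs <;> simp

lemma low_sq {p : ℝ} (hp0 : 0 < p) (hp : p < 2) : ∃ C : ℝ, 1 ≤ C ∧ ∀ (K : ℝ), 0 < K →
    ∀ (N : ℕ) (x : ℝ),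
    ∑ i ∈ range N, (K / 2 ^ i) ^ (p - 2) * (x - x * ind K i x) ^ 2 ≤ C * |x| ^ p := by
  obtain ⟨C, hC, h⟩ := geoB (show p - 2 < 0 by linarith)
  refine ⟨C, hC, fun K hK N x => ?_⟩
  by_cases hx : x = 0
  · simp [hx, Real.zero_rpow hp0.ne']
  have h1 := mul_le_mul_of_nonneg_right (h K |x| hK (abs_pos.2 hx) N) (sq_nonneg x)
  rw [mul_assoc, abs_rpow_mul_sq (by linarith), sum_mul] at h1
  refine le_trans (le_of_eq (sum_congr rfl fun i _ => ?_)) h1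
  simp only [ind]; split_ifs <;> simp

lemma low_abs_le {K : ℝ} (hK : 0 < K) (i : ℕ) (x : ℝ) : |x - x * ind K i x| ≤ K / 2 ^ i := by
  simp only [ind]; split_ifs with h
  · simp; positivity
  · simpa using (not_le.1 h).le

lemma shift_le {f : ℕ → ℝ} (hf : ∀ i, 0 ≤ f i) {Λ c N : ℕ} (h : Λ + c ≤ N) :
    ∑ ℓ ∈ range Λ, f (ℓ + c) ≤ ∑ i ∈ range N, f i := by
  rw [range_eq_Ico, sum_Ico_add' f 0 Λ c]
  refine sum_le_sum_of_subset_of_nonneg (fun a ha => ?_) (fun a _ _ => hf a)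
  rw [mem_Ico] at ha; rw [mem_range]; omega

lemma trap_abs_le (m : ℕ) (γ : ℕ → ℝ) (ℓ : ℕ) :
    |trap m γ ℓ| ≤ ∑ i ∈ range m, (m : ℝ)⁻¹ * (|γ (ℓ + (2 * m + i))| + |γ (ℓ + i)|) := by
  unfold trap
  rw [mul_sum]
  refine (abs_sum_le_sum_abs _ _).trans (sum_le_sum fun i _ => ?_)
  rw [abs_mul, abs_of_nonneg (show (0:ℝ) ≤ (m:ℝ)⁻¹ by positivity)]
  exact mul_le_mul_of_nonneg_left (abs_sub _ _) (by positivity)

lemma shift_avg {f : ℕ → ℝ} (hf : ∀ i, 0 ≤ f i) {m : ℕ} (hm : 1 ≤ m) (Λ : ℕ) :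
    ∑ ℓ ∈ range Λ, ∑ i ∈ range m, (m : ℝ)⁻¹ * (f (ℓ + (2 * m + i)) + f (ℓ + i)) ≤
      2 * ∑ i ∈ range (Λ + 3 * m), f i := by
  have hm0 : (0:ℝ) < m := by exact_mod_cast hm
  rw [sum_comm]
  calc _ ≤ ∑ _i ∈ range m, (m : ℝ)⁻¹ * (2 * ∑ i ∈ range (Λ + 3 * m), f i) := by
        refine sum_le_sum fun i hi => ?_
        rw [mem_range] at hi
        rw [← mul_sum, sum_add_distrib]
        have h1 := shift_le hf (Λ := Λ) (c := 2 * m + i) (N := Λ + 3 * m) (by omega)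
        have h2 := shift_le hf (Λ := Λ) (c := i) (N := Λ + 3 * m) (by omega)
        exact mul_le_mul_of_nonneg_left (by linarith) (by positivity)
    _ = _ := by simp only [sum_const, card_range, nsmul_eq_mul]; field_simp

lemma trap_sum_lp {p : ℝ} (hp : 1 ≤ p) {m : ℕ} (hm : 1 ≤ m) (γ : ℕ → ℝ) (Λ : ℕ) :
    ∑ ℓ ∈ range Λ, |trap m γ ℓ| ^ p ≤ 2 ^ p * 2 * ∑ i ∈ range (Λ + 3 * m), |γ i| ^ p := by
  have hm0 : (0:ℝ) < m := by exact_mod_cast hm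
  have h1 : ∀ ℓ, |trap m γ ℓ| ^ p ≤
      2 ^ p * ∑ i ∈ range m, (m : ℝ)⁻¹ * (|γ (ℓ + (2 * m + i))| ^ p + |γ (ℓ + i)| ^ p) := by
    intro ℓ
    refine (Real.rpow_le_rpow (abs_nonneg _) (trap_abs_le m γ ℓ) (by linarith)).trans ?_
    refine (Real.rpow_arith_mean_le_arith_mean_rpow _ _ _ (fun i _ => by positivity)
      (by simp [hm0.ne']) (fun i _ => by positivity) hp).trans ?_
    rw [mul_sum]
    refine sum_le_sum fun i _ => ?_
    rw [mul_left_comm]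
    exact mul_le_mul_of_nonneg_left (add_rpow_le (by linarith) (abs_nonneg _) (abs_nonneg _))
      (by positivity)
  refine (sum_le_sum fun ℓ _ => h1 ℓ).trans ?_
  rw [← mul_sum, mul_assoc]
  exact mul_le_mul_of_nonneg_left
    (shift_avg (f := fun i => |γ i| ^ p) (fun i => by positivity) hm Λ) (by positivity)

lemma trap_sum_l1 {p : ℝ} (hp : 1 ≤ p) {m : ℕ} (hm : 1 ≤ m) (γ : ℕ → ℝ) (Λ : ℕ) :
    ∑ ℓ ∈ range Λ, |trap m γ ℓ| ^ p ≤
      2 ^ p * (m : ℝ) ^ (1 - p) * (∑ i ∈ range (Λ + 3 * m), |γ i|) ^ p := by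
  have hm0 : (0:ℝ) < m := by exact_mod_cast hm
  set Γ := ∑ i ∈ range (Λ + 3 * m), |γ i| with hΓ
  have hΓ0 : 0 ≤ Γ := sum_nonneg fun i _ => abs_nonneg _
  have h1 : ∀ ℓ ∈ range Λ, |trap m γ ℓ| ≤ 2 * Γ / m := by
    intro ℓ hℓ
    rw [mem_range] at hℓ
    refine (trap_abs_le m γ ℓ).trans ?_
    rw [← mul_sum, sum_add_distrib, inv_mul_eq_div]
    have h2 := shift_le (f := fun i => |γ i|) (fun i => abs_nonneg _) (Λ := m) (c := ℓ + 2 * m)
      (N := Λ + 3 * m) (by omega)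
    have h3 := shift_le (f := fun i => |γ i|) (fun i => abs_nonneg _) (Λ := m) (c := ℓ)
      (N := Λ + 3 * m) (by omega)
    simp only [show ∀ i, i + (ℓ + 2 * m) = ℓ + (2 * m + i) from fun i => by ring] at h2
    simp only [show ∀ i, i + ℓ = ℓ + i from fun i => by ring] at h3
    exact div_le_div_of_nonneg_right (by linarith) hm0.le
  have h2 : ∑ ℓ ∈ range Λ, |trap m γ ℓ| ≤ 2 * Γ :=
    (sum_le_sum fun ℓ _ => trap_abs_le m γ ℓ).trans
      (shift_avg (f := fun i => |γ i|) (fun i => abs_nonneg _) hm Λ)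
  calc ∑ ℓ ∈ range Λ, |trap m γ ℓ| ^ p ≤ ∑ ℓ ∈ range Λ, (2 * Γ / m) ^ (p - 1) * |trap m γ ℓ| := by
        refine sum_le_sum fun ℓ hℓ => ?_
        rw [← abs_rpow_mul_abs (by linarith)]
        exact mul_le_mul_of_nonneg_right
          (Real.rpow_le_rpow (abs_nonneg _) (h1 ℓ hℓ) (by linarith)) (abs_nonneg _)
    _ ≤ (2 * Γ / m) ^ (p - 1) * (2 * Γ) := by
        rw [← mul_sum]; exact mul_le_mul_of_nonneg_left h2 (by positivity)
    _ = _ := by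
        have h3 := abs_rpow_mul_abs (show 0 < p by linarith) (2 * Γ)
        rw [abs_of_nonneg (by positivity)] at h3
        rw [Real.div_rpow (by positivity) hm0.le, div_mul_eq_mul_div, h3,
          Real.mul_rpow (by norm_num) hΓ0, show 1 - p = -(p - 1) by ring, Real.rpow_neg hm0.le]
        ring

lemma l1_interp {p : ℝ} (hp : 2 < p) : ∃ C : ℝ, 1 ≤ C ∧ ∀ (K B : ℝ), 0 < K → 0 < B →
    ∀ (N : ℕ) (γ : ℕ → ℝ), (∀ i, |γ i| ≤ B * (K / 2 ^ i)) →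
    (∑ i ∈ range N, |γ i|) ^ p ≤
      C * B ^ (p - 2) * ∑ i ∈ range N, (K / 2 ^ i) ^ (p - 2) * γ i ^ 2 := by
  obtain ⟨C1, hC1, h1⟩ := geoA (show (0:ℝ) < 1 by norm_num)
  obtain ⟨C2, hC2, h2⟩ := geoB (show 2 - p < 0 by linarith)
  have hp0 : 0 < p := by linarith
  refine ⟨(C1 + C2 + 1) ^ p, Real.one_le_rpow (by linarith) hp0.le, fun K B hK hB N γ hγ => ?_⟩
  set A := ∑ i ∈ range N, (K / 2 ^ i) ^ (p - 2) * γ i ^ 2 with hA
  have hA0 : 0 ≤ A := sum_nonneg fun i _ => by positivity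
  rcases eq_or_lt_of_le hA0 with h0 | h0
  · have h3 := (sum_eq_zero_iff_of_nonneg (fun i _ => by positivity)).1 h0.symm
    have h4 : ∑ i ∈ range N, |γ i| = 0 := by
      refine sum_eq_zero fun i hi => ?_
      have h5 := (mul_eq_zero.1 (h3 i hi)).resolve_left (by positivity)
      simpa using h5
    rw [h4, Real.zero_rpow hp0.ne']
    positivity
  · set θ : ℝ := (A / B ^ 2) ^ (1 / p) with hθdef
    have hθ : 0 < θ := by positivity
    have hθp : θ ^ p = A / B ^ 2 := by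
      rw [hθdef, ← Real.rpow_mul (by positivity), one_div_mul_cancel hp0.ne', Real.rpow_one]
    set κ : ℝ := θ * B / A with hκ
    have hκ0 : 0 < κ := by positivity
    have h3 : ∀ i, |γ i| ≤ B * (if K / 2 ^ i ≤ θ then (K / 2 ^ i) ^ (1:ℝ) else 0) +
        κ⁻¹ * (if K / 2 ^ i ≤ θ then 0 else (K / 2 ^ i) ^ (2 - p)) +
        κ * ((K / 2 ^ i) ^ (p - 2) * γ i ^ 2) := by
      intro i
      have hl : 0 < K / 2 ^ i := by positivity
      have h4 : 0 ≤ κ * ((K / 2 ^ i) ^ (p - 2) * γ i ^ 2) := by positivity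
      split_ifs with h
      · rw [Real.rpow_one]; have := hγ i; linarith
      · set a := κ * (K / 2 ^ i) ^ (p - 2) with ha
        have ha0 : 0 < a := by positivity
        have h5 : κ⁻¹ * (K / 2 ^ i) ^ (2 - p) = a⁻¹ := by
          rw [ha, mul_inv, show 2 - p = -(p - 2) by ring, Real.rpow_neg hl.le]
        rw [h5, ← mul_assoc, ← ha, mul_zero, zero_add, ← sq_abs]
        have h6 : a * |γ i| ≤ 1 + (a * |γ i|) ^ 2 := by nlinarith [sq_nonneg (a * |γ i| - 1)]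
        have h7 : a⁻¹ + a * |γ i| ^ 2 = a⁻¹ * (1 + (a * |γ i|) ^ 2) := by field_simp
        rw [h7, le_inv_mul_iff₀ ha0]; exact h6
    have h4 := sum_le_sum fun i (_ : i ∈ range N) => h3 i
    rw [sum_add_distrib, sum_add_distrib, ← mul_sum, ← mul_sum, ← mul_sum, ← hA] at h4
    have h5 := mul_le_mul_of_nonneg_left (h1 K θ hK hθ.le N) hB.le
    have h6 := mul_le_mul_of_nonneg_left (h2 K θ hK hθ N) (inv_pos.2 hκ0).le
    have h7 : κ * A = B * θ := by rw [hκ]; field_simp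
    have h8 : κ⁻¹ * (C2 * θ ^ (2 - p)) = C2 * (B * θ) := by
      have : θ ^ (2 - p) = θ ^ 2 / θ ^ p := by
        rw [Real.rpow_sub hθ, ← Real.rpow_natCast]; norm_num
      rw [this, hθp, hκ]; field_simp
    rw [Real.rpow_one] at h5
    have h9 : ∑ i ∈ range N, |γ i| ≤ (C1 + C2 + 1) * (B * θ) := by linarith
    refine (Real.rpow_le_rpow (sum_nonneg fun i _ => abs_nonneg _) h9 hp0.le).trans (le_of_eq ?_)
    rw [Real.mul_rpow (by linarith) (by positivity), Real.mul_rpow hB.le hθ.le, hθp,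
      Real.rpow_sub hB, show (2:ℝ) = (2:ℕ) by norm_num, Real.rpow_natCast]
    ring

lemma small_interp {p : ℝ} (hp1 : 1 ≤ p) (hp : p ≤ 2) {α : ℝ} (hα : 0 < α) (γ : ℝ) :
    |γ| ^ p ≤ α ^ (p - 2) * γ ^ 2 + α ^ (p - 1) * |γ| := by
  have h1 : 0 ≤ α ^ (p - 2) * γ ^ 2 := by positivity
  have h2 : 0 ≤ α ^ (p - 1) * |γ| := by positivity
  rcases le_total α |γ| with h | h
  · have h3 : |γ| ^ (p - 2) ≤ α ^ (p - 2) := Real.rpow_le_rpow_of_nonpos hα h (by linarith)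
    have h4 := mul_le_mul_of_nonneg_right h3 (sq_nonneg γ)
    rw [abs_rpow_mul_sq (by linarith)] at h4
    linarith
  · have h3 : |γ| ^ (p - 1) ≤ α ^ (p - 1) := Real.rpow_le_rpow (abs_nonneg _) h (by linarith)
    have h4 := mul_le_mul_of_nonneg_right h3 (abs_nonneg γ)
    rw [abs_rpow_mul_abs (by linarith)] at h4
    linarith

end Crest.Agent.R232
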