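import Mathlib

set_option autoImplicit false
open Finset

namespace Crest.Agent.R232

/-- multiplicative weights / greedy potential lemma, one-sided form -/
theorem mwu {I : Type*} [Fintype I] [Nonempty I] {A : Type*} (a : A → I → ℝ) (M δ : ℝ)
    (hδ : 0 < δ) (hδM : δ ≤ M) (hM : ∀ α i, |a α i| ≤ M)
    (h : ∀ ξ : I → ℝ, (∀ i, 0 < ξ i) → ∃ α, ∑ i, ξ i * a α i ≤ 0)
    (d : ℕ) (hd : M ^ 2 * Real.log (Fintype.card I) ≤ δ ^ 2 * d) :
    ∃ α : Fin d → A, ∀ i, ∑ k, a (α k) i ≤ 2 * δ * d := by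
  have hM0 : 0 < M := lt_of_lt_of_le hδ hδM
  set η : ℝ := δ / M ^ 2 with hη
  have hη0 : 0 < η := by positivity
  have hηM : η * M ≤ 1 := by
    rw [hη, div_mul_eq_mul_div, div_le_one (by positivity)]
    nlinarith
  have key : ∀ d : ℕ, ∃ α : Fin d → A, ∑ i, Real.exp (η * ∑ k, a (α k) i) ≤
      Fintype.card I * Real.exp (η ^ 2 * M ^ 2 * d) := by
    intro d
    induction d with
    | zero => exact ⟨Fin.elim0, by simp⟩
    | succ d ih =>
      obtain ⟨α, hα⟩ := ih
      obtain ⟨β, hβ⟩ := h (fun i => Real.exp (η * ∑ k, a (α k) i)) (fun i => Real.exp_pos _)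
      refine ⟨Fin.cons β α, ?_⟩
      simp only [Fin.sum_univ_succ, Fin.cons_zero, Fin.cons_succ]
      have h1 : ∀ i, Real.exp (η * (a β i + ∑ k, a (α k) i)) ≤
          Real.exp (η * ∑ k, a (α k) i) * (1 + η ^ 2 * M ^ 2) +
            η * (Real.exp (η * ∑ k, a (α k) i) * a β i) := by
        intro i
        have hx : |η * a β i| ≤ 1 := by
          rw [abs_mul, abs_of_pos hη0]
          exact le_trans (mul_le_mul_of_nonneg_left (hM β i) hη0.le) hηM
        have h2 := Real.abs_exp_sub_one_sub_id_le hx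
        have h3 : (η * a β i) ^ 2 ≤ η ^ 2 * M ^ 2 := by
          rw [mul_pow]
          apply mul_le_mul_of_nonneg_left _ (by positivity)
          exact sq_le_sq' (abs_le.1 (hM β i)).1 (abs_le.1 (hM β i)).2
        have h4 : Real.exp (η * a β i) ≤ 1 + η * a β i + η ^ 2 * M ^ 2 := by
          have := (abs_le.1 h2).2; linarith
        rw [mul_add, Real.exp_add]
        have h5 := Real.exp_pos (η * ∑ k, a (α k) i)
        nlinarith
      calc ∑ i, Real.exp (η * (a β i + ∑ k, a (α k) i))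
          ≤ ∑ i, (Real.exp (η * ∑ k, a (α k) i) * (1 + η ^ 2 * M ^ 2) +
            η * (Real.exp (η * ∑ k, a (α k) i) * a β i)) := sum_le_sum fun i _ => h1 i
        _ = (∑ i, Real.exp (η * ∑ k, a (α k) i)) * (1 + η ^ 2 * M ^ 2) +
            η * ∑ i, Real.exp (η * ∑ k, a (α k) i) * a β i := by
          rw [sum_add_distrib, ← sum_mul, ← mul_sum]
        _ ≤ (Fintype.card I * Real.exp (η ^ 2 * M ^ 2 * d)) * Real.exp (η ^ 2 * M ^ 2) + 0 := by
          apply add_le_add
          · apply mul_le_mul hα _ (by positivity) (by positivity)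
            have := Real.add_one_le_exp (η ^ 2 * M ^ 2); linarith
          · exact mul_nonpos_of_nonneg_of_nonpos hη0.le hβ
        _ = Fintype.card I * Real.exp (η ^ 2 * M ^ 2 * (d + 1 : ℕ)) := by
          rw [add_zero, mul_assoc, ← Real.exp_add]; congr 2; push_cast; ring
  obtain ⟨α, hα⟩ := key d
  refine ⟨α, fun i => ?_⟩
  have hc : (0 : ℝ) < Fintype.card I := by exact_mod_cast Fintype.card_pos
  have h1 : Real.exp (η * ∑ k, a (α k) i) ≤ Fintype.card I * Real.exp (η ^ 2 * M ^ 2 * d) :=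
    le_trans (single_le_sum (f := fun i => Real.exp (η * ∑ k, a (α k) i))
      (fun i _ => (Real.exp_pos _).le) (mem_univ i)) hα
  rw [← Real.exp_log hc, ← Real.exp_add, Real.exp_le_exp] at h1
  have h2 : η * ∑ k, a (α k) i ≤ η * (2 * δ * d) := by
    have e1 : η ^ 2 * M ^ 2 * d = η * (δ * d) := by rw [hη]; field_simp
    have e2 : Real.log (Fintype.card I) ≤ η * (δ * d) := by
      rw [hη, div_mul_eq_mul_div, le_div_iff₀ (by positivity)]
      nlinarith
    linarith
  exact le_of_mul_le_mul_left h2 hη0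

/-- two-sided form -/
theorem mwu2 {E : Type*} [Fintype E] [Nonempty E] {A : Type*} (a : A → E → ℝ) (M κ δ : ℝ)
    (hκ : 0 ≤ κ) (hδ : 0 < δ) (hδM : δ ≤ M) (hM : ∀ α e, |a α e| + κ ≤ M)
    (h : ∀ ξ : E → ℝ, ∃ α, ∑ e, ξ e * a α e ≤ κ * ∑ e, |ξ e|)
    (d : ℕ) (hd : M ^ 2 * Real.log (2 * Fintype.card E) ≤ δ ^ 2 * d) :
    ∃ α : Fin d → A, ∀ e, |∑ k, a (α k) e| ≤ (κ + 2 * δ) * d := by
  obtain ⟨α, hα⟩ := mwu (I := Bool × E)
    (fun α i => (if i.1 then a α i.2 else - a α i.2) - κ) M δ hδ hδM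
    (by
      rintro α ⟨b, e⟩
      have h1 := hM α e
      have h2 := abs_le.1 (le_refl |a α e|)
      cases b <;> simp only [if_true, Bool.false_eq_true, if_false] <;> rw [abs_le] <;>
        constructor <;> linarith)
    (by
      intro ζ hζ
      obtain ⟨α, hα⟩ := h (fun e => ζ (true, e) - ζ (false, e))
      refine ⟨α, ?_⟩
      rw [Fintype.sum_prod_type, Fintype.sum_bool, ← sum_add_distrib]
      simp only [if_true, Bool.false_eq_true, if_false]
      have h1 : ∑ e, (ζ (true, e) * (a α e - κ) + ζ (false, e) * (- a α e - κ)) =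
          ∑ e, (ζ (true, e) - ζ (false, e)) * a α e - κ * ∑ e, (ζ (true, e) + ζ (false, e)) := by
        rw [mul_sum, ← sum_sub_distrib]
        exact sum_congr rfl fun e _ => by ring
      rw [h1]
      have h2 : ∑ e, |ζ (true, e) - ζ (false, e)| ≤ ∑ e, (ζ (true, e) + ζ (false, e)) := by
        refine sum_le_sum fun e _ => ?_
        have := hζ (true, e); have := hζ (false, e)
        rw [abs_le]; constructor <;> linarith
      have := mul_le_mul_of_nonneg_left h2 hκ
      linarith)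
    d (by simpa using hd)
  refine ⟨α, fun e => ?_⟩
  have h1 := hα (true, e)
  have h2 := hα (false, e)
  simp only [if_true, Bool.false_eq_true, if_false, sum_sub_distrib, sum_const, card_univ,
    Fintype.card_fin, nsmul_eq_mul, sum_neg_distrib] at h1 h2
  rw [abs_le]; constructor <;> linarith

/-- geometric sums below a ceiling -/
lemma geo {ρ : ℝ} (hρ : 0 < ρ) (hρ1 : ρ ≠ 1) : ∃ C : ℝ, 1 ≤ C ∧ ∀ (a c : ℝ), 0 ≤ a → 0 ≤ c →
    ∀ N : ℕ, ∑ i ∈ range N, (if a * ρ ^ i ≤ c then a * ρ ^ i else 0) ≤ C * c := by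
  rcases lt_or_gt_of_ne hρ1 with hlt | hgt
  · have h1 : 0 < 1 - ρ := by linarith
    refine ⟨1 / (1 - ρ), by rw [le_div_iff₀ h1]; linarith, fun a c ha hc N => ?_⟩
    have key : ∀ N : ℕ, (1 - ρ) * ∑ i ∈ range N, (if a * ρ ^ i ≤ c then a * ρ ^ i else 0) +
        min (a * ρ ^ N) c ≤ c := by
      intro N
      induction N with
      | zero => simp
      | succ N ih =>
        rw [sum_range_succ, mul_add]
        have hp : 0 ≤ a * ρ ^ N := by positivity
        have hle : a * ρ ^ (N + 1) ≤ a * ρ ^ N := by rw [pow_succ]; nlinarith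
        split_ifs with h
        · rw [min_eq_left h] at ih
          rw [min_eq_left (hle.trans h), pow_succ]
          nlinarith
        · have : min (a * ρ ^ (N + 1)) c ≤ min (a * ρ ^ N) c := min_le_min_right _ hle
          linarith
    have h2 := key N
    have h3 : 0 ≤ min (a * ρ ^ N) c := le_min (by positivity) hc
    rw [one_div_mul_eq_div, le_div_iff₀ h1]
    linarith
  · have h1 : 0 < ρ - 1 := by linarith
    refine ⟨ρ / (ρ - 1), by rw [le_div_iff₀ h1]; linarith, fun a c ha hc N => ?_⟩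
    have key : ∀ N : ℕ, (ρ - 1) * ∑ i ∈ range N, (if a * ρ ^ i ≤ c then a * ρ ^ i else 0) ≤
        min (a * ρ ^ N) (ρ * c) := by
      intro N
      induction N with
      | zero => simp; exact ⟨ha, by positivity⟩
      | succ N ih =>
        rw [sum_range_succ, mul_add]
        have hp : 0 ≤ a * ρ ^ N := by positivity
        have hle : a * ρ ^ N ≤ a * ρ ^ (N + 1) := by rw [pow_succ]; nlinarith
        split_ifs with h
        · have h4 : a * ρ ^ (N + 1) ≤ ρ * c := by rw [pow_succ]; nlinarith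
          rw [min_eq_left h4, pow_succ]
          have := min_le_left (a * ρ ^ N) (ρ * c)
          nlinarith
        · have : min (a * ρ ^ N) (ρ * c) ≤ min (a * ρ ^ (N + 1)) (ρ * c) := min_le_min_right _ hle
          linarith
    have h2 := key N
    have h3 := min_le_right (a * ρ ^ N) (ρ * c)
    rw [div_mul_eq_mul_div, le_div_iff₀ h1]
    linarith

lemma div_two_pow_rpow {K : ℝ} (hK : 0 < K) (β : ℝ) (i : ℕ) :
    (K / 2 ^ i) ^ β = K ^ β * ((2:ℝ) ^ (-β)) ^ i := by
  rw [Real.div_rpow hK.le (by positivity), ← Real.rpow_natCast, ← Real.rpow_natCast,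
    ← Real.rpow_mul (by norm_num), ← Real.rpow_mul (by norm_num), div_eq_mul_inv,
    ← Real.rpow_neg (by norm_num)]
  congr 2; ring

lemma geo_rpow {β : ℝ} (hβ : β ≠ 0) : ∃ C : ℝ, 1 ≤ C ∧ ∀ (K c : ℝ), 0 < K → 0 ≤ c →
    ∀ N : ℕ, ∑ i ∈ range N, (if (K / 2 ^ i) ^ β ≤ c then (K / 2 ^ i) ^ β else 0) ≤ C * c := by
  have h1 : (2:ℝ) ^ (-β) ≠ 1 := by
    intro h
    have := congrArg Real.log h
    rw [Real.log_rpow (by norm_num), Real.log_one] at this
    have h2 : Real.log 2 ≠ 0 := by positivity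
    exact hβ (by simpa [h2] using this)
  obtain ⟨C, hC, h⟩ := geo (ρ := (2:ℝ) ^ (-β)) (by positivity) h1
  refine ⟨C, hC, fun K c hK hc N => ?_⟩
  simp only [div_two_pow_rpow hK]
  exact h _ _ (by positivity) hc N

/-- sum over the dyadic levels below `x`, positive exponent -/
lemma geoA {β : ℝ} (hβ : 0 < β) : ∃ C : ℝ, 1 ≤ C ∧ ∀ (K x : ℝ), 0 < K → 0 ≤ x →
    ∀ N : ℕ, ∑ i ∈ range N, (if K / 2 ^ i ≤ x then (K / 2 ^ i) ^ β else 0) ≤ C * x ^ β := by
  obtain ⟨C, hC, h⟩ := geo_rpow hβ.ne'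
  refine ⟨C, hC, fun K x hK hx N => le_trans (sum_le_sum fun i _ => ?_)
    (h K (x ^ β) hK (by positivity) N)⟩
  by_cases hi : K / 2 ^ i ≤ x
  · rw [if_pos hi, if_pos (Real.rpow_le_rpow (by positivity) hi hβ.le)]
  · rw [if_neg hi]; split_ifs <;> positivity

/-- sum over the dyadic levels above `x`, negative exponent -/
lemma geoB {β : ℝ} (hβ : β < 0) : ∃ C : ℝ, 1 ≤ C ∧ ∀ (K x : ℝ), 0 < K → 0 < x →
    ∀ N : ℕ, ∑ i ∈ range N, (if K / 2 ^ i ≤ x then 0 else (K / 2 ^ i) ^ β) ≤ C * x ^ β := by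
  obtain ⟨C, hC, h⟩ := geo_rpow hβ.ne
  refine ⟨C, hC, fun K x hK hx N => le_trans (sum_le_sum fun i _ => ?_)
    (h K (x ^ β) hK (by positivity) N)⟩
  by_cases hi : K / 2 ^ i ≤ x
  · rw [if_pos hi]; split_ifs <;> positivity
  · rw [if_neg hi, if_pos (Real.rpow_le_rpow_of_nonpos hx (not_le.1 hi).le hβ.le)]

lemma add_rpow_le {p : ℝ} (hp : 0 ≤ p) {a b : ℝ} (ha : 0 ≤ a) (hb : 0 ≤ b) :
    (a + b) ^ p ≤ 2 ^ p * (a ^ p + b ^ p) := by
  have h2 : (0:ℝ) < 2 ^ p := by positivity
  have hap : 0 ≤ a ^ p := by positivity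
  have hbp : 0 ≤ b ^ p := by positivity
  rcases le_total a b with h | h
  · calc (a + b) ^ p ≤ (2 * b) ^ p := Real.rpow_le_rpow (by positivity) (by linarith) hp
      _ = 2 ^ p * b ^ p := Real.mul_rpow (by norm_num) hb
      _ ≤ _ := by nlinarith
  · calc (a + b) ^ p ≤ (2 * a) ^ p := Real.rpow_le_rpow (by positivity) (by linarith) hp
      _ = 2 ^ p * a ^ p := Real.mul_rpow (by norm_num) ha
      _ ≤ _ := by nlinarith

lemma abs_add_rpow_le {p : ℝ} (hp : 0 ≤ p) (a b : ℝ) :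
    |a + b| ^ p ≤ 2 ^ p * (|a| ^ p + |b| ^ p) :=
  le_trans (Real.rpow_le_rpow (abs_nonneg _) (abs_add_le a b) hp)
    (add_rpow_le hp (abs_nonneg a) (abs_nonneg b))

/-- perturbation of a `p`-th power -/
lemma perturb {p η : ℝ} (hp : 1 ≤ p) (hη : 0 < η) (hη1 : η ≤ 1) : ∃ C : ℝ, 1 ≤ C ∧ ∀ a b : ℝ,
    abs (|a + b| ^ p - |a| ^ p) ≤ η * |a| ^ p + C * |b| ^ p := by
  set δ : ℝ := η / (2 * p) with hδ
  have hδ0 : 0 < δ := by positivity
  have hpδ : p * δ = η / 2 := by rw [hδ]; field_simp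
  have hδ1 : δ ≤ 1 := by nlinarith
  have hup : (1 + δ) ^ p ≤ 1 + η := by
    have h1 : (1 + δ) ^ p ≤ (Real.exp δ) ^ p :=
      Real.rpow_le_rpow (by linarith) (by have := Real.add_one_le_exp δ; linarith) (by linarith)
    rw [← Real.exp_mul, mul_comm, hpδ] at h1
    have h2 := Real.abs_exp_sub_one_le (x := η / 2) (by rw [abs_of_pos (by linarith)]; linarith)
    rw [abs_of_pos (show 0 < η / 2 by linarith)] at h2
    have := (abs_le.1 h2).2
    linarith
  have hlo : 1 - η ≤ (1 - δ) ^ p := by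
    have := one_add_mul_self_le_rpow_one_add (s := -δ) (by linarith) hp
    rw [← sub_eq_add_neg] at this
    nlinarith
  have hC : 1 ≤ (1 + 1 / δ) ^ p := Real.one_le_rpow (by have : 0 < 1 / δ := by positivity
                                                        linarith) (by linarith)
  refine ⟨(1 + 1 / δ) ^ p, hC, fun a b => ?_⟩
  have hap : 0 ≤ |a| ^ p := by positivity
  have hbp : 0 ≤ |b| ^ p := by positivity
  have hp0 : 0 ≤ p := by linarith
  have t1 := abs_add_le a b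
  have t2 : |a| - |b| ≤ |a + b| := by
    have := abs_sub (a + b) b
    simp only [add_sub_cancel_right] at this
    linarith
  by_cases h : |b| ≤ δ * |a|
  · have u1 : |a + b| ^ p ≤ (1 + δ) ^ p * |a| ^ p := by
      rw [← Real.mul_rpow (by linarith) (abs_nonneg _)]
      exact Real.rpow_le_rpow (abs_nonneg _) (by linarith) hp0
    have u2 : (1 - δ) ^ p * |a| ^ p ≤ |a + b| ^ p := by
      rw [← Real.mul_rpow (by linarith) (abs_nonneg _)]
      exact Real.rpow_le_rpow (mul_nonneg (by linarith) (abs_nonneg _)) (by linarith) hp0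
    have u3 : 0 ≤ (1 + 1 / δ) ^ p * |b| ^ p := by positivity
    rw [abs_le]; constructor <;> nlinarith
  · have h' : |a| ≤ 1 / δ * |b| := by
      rw [one_div_mul_eq_div, le_div_iff₀ hδ0]; linarith [not_le.1 h]
    have hb := abs_nonneg b
    have u1 : |a + b| ^ p ≤ (1 + 1 / δ) ^ p * |b| ^ p := by
      rw [← Real.mul_rpow (by positivity) (abs_nonneg _)]
      exact Real.rpow_le_rpow (abs_nonneg _) (by linarith) hp0
    have u2 : |a| ^ p ≤ (1 + 1 / δ) ^ p * |b| ^ p := by
      rw [← Real.mul_rpow (by positivity) (abs_nonneg _)]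
      exact Real.rpow_le_rpow (abs_nonneg _) (by linarith) hp0
    have u3 : 0 ≤ |a + b| ^ p := by positivity
    have u4 : 0 ≤ η * |a| ^ p := by positivity
    rw [abs_le]; constructor <;> linarith

lemma rpow_le_exp {p x : ℝ} (hp : 0 < p) (hx : 0 ≤ x) : x ^ p ≤ p ^ p * Real.exp x := by
  have h1 : x / p ≤ Real.exp (x / p) := by have := Real.add_one_le_exp (x / p); linarith
  have h2 : (x / p) ^ p ≤ (Real.exp (x / p)) ^ p := Real.rpow_le_rpow (by positivity) h1 hp.le
  rw [← Real.exp_mul, div_mul_cancel₀ _ hp.ne', Real.div_rpow hx hp.le,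
    div_le_iff₀ (by positivity)] at h2
  linarith

lemma exp_abs_le_cosh (x : ℝ) : Real.exp |x| ≤ 2 * Real.cosh x := by
  rw [← Real.cosh_abs, Real.cosh_eq]
  have := Real.exp_pos (-|x|)
  linarith

lemma cosh_le_one_add_sq {x : ℝ} (hx : |x| ≤ 1) : Real.cosh x ≤ 1 + x ^ 2 := by
  have h1 := (abs_le.1 (Real.abs_exp_sub_one_sub_id_le hx)).2
  have h2 := (abs_le.1 (Real.abs_exp_sub_one_sub_id_le (x := -x) (by rwa [abs_neg]))).2
  rw [Real.cosh_eq]
  nlinarith

end Crest.Agent.R232
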