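import Mathlib

set_option autoImplicit false

namespace Crest.Agent.R232

/-- the Clarkson defect -/
noncomputable def clark (P a b : ℝ) : ℝ := |a + b| ^ P + |a - b| ^ P - 2 * |a| ^ P - 2 * |b| ^ P

lemma abs_rpow_eq_sq_rpow (P x : ℝ) : |x| ^ P = (x ^ 2) ^ (P / 2) := by
  rw [← sq_abs, ← Real.rpow_natCast, ← Real.rpow_mul (abs_nonneg x)]
  congr 1; push_cast; ring

lemma strict_superadd {r x y : ℝ} (hr : 1 < r) (hx : 0 < x) (hy : 0 < y) :
    x ^ r + y ^ r < (x + y) ^ r := by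
  have h1 : x ^ (r - 1) < (x + y) ^ (r - 1) := Real.rpow_lt_rpow hx.le (by linarith) (by linarith)
  have h2 : y ^ (r - 1) < (x + y) ^ (r - 1) := Real.rpow_lt_rpow hy.le (by linarith) (by linarith)
  have e : ∀ z : ℝ, 0 < z → z ^ r = z * z ^ (r - 1) := by
    intro z hz
    rw [Real.rpow_sub_one hz.ne']; field_simp
  rw [e x hx, e y hy, e (x + y) (by linarith)]
  nlinarith

lemma strict_subadd {r x y : ℝ} (hr : r < 1) (hx : 0 < x) (hy : 0 < y) :
    (x + y) ^ r < x ^ r + y ^ r := by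
  have h1 : (x + y) ^ (r - 1) < x ^ (r - 1) :=
    Real.rpow_lt_rpow_of_neg hx (by linarith) (by linarith)
  have h2 : (x + y) ^ (r - 1) < y ^ (r - 1) :=
    Real.rpow_lt_rpow_of_neg hy (by linarith) (by linarith)
  have e : ∀ z : ℝ, 0 < z → z ^ r = z * z ^ (r - 1) := by
    intro z hz
    rw [Real.rpow_sub_one hz.ne']; field_simp
  rw [e x hx, e y hy, e (x + y) (by linarith)]
  nlinarith

lemma clark_eq_zero {P a b : ℝ} (hP : 0 < P) (h : a * b = 0) : clark P a b = 0 := by
  unfold clark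
  rcases mul_eq_zero.1 h with rfl | rfl
  · simp [Real.zero_rpow hP.ne']; ring
  · simp [Real.zero_rpow hP.ne']; ring

lemma clark_pos {P a b : ℝ} (hP : 2 < P) (h : a * b ≠ 0) : 0 < clark P a b := by
  have ha : a ≠ 0 := left_ne_zero_of_mul h
  have hb : b ≠ 0 := right_ne_zero_of_mul h
  unfold clark
  simp only [abs_rpow_eq_sq_rpow P]
  have hr : 1 < P / 2 := by linarith
  have hc := (convexOn_rpow hr.le).2 (Set.mem_Ici.2 (sq_nonneg (a + b)))
    (Set.mem_Ici.2 (sq_nonneg (a - b))) (show (0:ℝ) ≤ 1 / 2 by norm_num)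
    (show (0:ℝ) ≤ 1 / 2 by norm_num) (by norm_num)
  simp only [smul_eq_mul] at hc
  have e : 1 / 2 * (a + b) ^ 2 + 1 / 2 * (a - b) ^ 2 = a ^ 2 + b ^ 2 := by ring
  rw [e] at hc
  have := strict_superadd hr (show 0 < a ^ 2 by positivity) (show 0 < b ^ 2 by positivity)
  linarith

lemma clark_neg {P a b : ℝ} (hP0 : 0 < P) (hP : P < 2) (h : a * b ≠ 0) : clark P a b < 0 := by
  have ha : a ≠ 0 := left_ne_zero_of_mul h
  have hb : b ≠ 0 := right_ne_zero_of_mul h
  unfold clark
  simp only [abs_rpow_eq_sq_rpow P]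
  have hr : P / 2 < 1 := by linarith
  have hc := (Real.concaveOn_rpow (show 0 ≤ P / 2 by linarith) hr.le).2
    (Set.mem_Ici.2 (sq_nonneg (a + b)))
    (Set.mem_Ici.2 (sq_nonneg (a - b))) (show (0:ℝ) ≤ 1 / 2 by norm_num)
    (show (0:ℝ) ≤ 1 / 2 by norm_num) (by norm_num)
  simp only [smul_eq_mul] at hc
  have e : 1 / 2 * (a + b) ^ 2 + 1 / 2 * (a - b) ^ 2 = a ^ 2 + b ^ 2 := by ring
  rw [e] at hc
  have := strict_subadd hr (show 0 < a ^ 2 by positivity) (show 0 < b ^ 2 by positivity)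
  linarith

/-- the sum of Clarkson defects vanishes iff the supports are disjoint -/
lemma sum_clark_eq_zero_iff {P : ℝ} (hP0 : 0 < P) (hP : P ≠ 2) {β : Type*} [Fintype β]
    (u v : β → ℝ) : ∑ c, clark P (u c) (v c) = 0 ↔ ∀ c, u c * v c = 0 := by
  constructor
  · intro h
    rcases lt_or_gt_of_ne hP with hlt | hgt
    · have hle : ∀ c ∈ Finset.univ, clark P (u c) (v c) ≤ 0 := by
        intro c _
        by_cases hc : u c * v c = 0
        · exact (clark_eq_zero hP0 hc).le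
        · exact (clark_neg hP0 hlt hc).le
      rw [Finset.sum_eq_zero_iff_of_nonpos hle] at h
      intro c
      by_contra hc
      exact (clark_neg hP0 hlt hc).ne (h c (Finset.mem_univ _))
    · have hle : ∀ c ∈ Finset.univ, 0 ≤ clark P (u c) (v c) := by
        intro c _
        by_cases hc : u c * v c = 0
        · exact (clark_eq_zero hP0 hc).ge
        · exact (clark_pos hgt hc).le
      rw [Finset.sum_eq_zero_iff_of_nonneg hle] at h
      intro c
      by_contra hc
      exact (clark_pos hgt hc).ne' (h c (Finset.mem_univ _))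
  · intro h
    exact Finset.sum_eq_zero fun c _ => clark_eq_zero hP0 (h c)

lemma mid_le {P : ℝ} (hP : 1 < P) (u v : ℝ) :
    |u - v| ^ P ≤ 2 ^ P / 2 * (|u| ^ P + |v| ^ P) := by
  have hc := (convexOn_rpow hP.le).2 (Set.mem_Ici.2 (abs_nonneg u))
    (Set.mem_Ici.2 (abs_nonneg v)) (show (0:ℝ) ≤ 1 / 2 by norm_num)
    (show (0:ℝ) ≤ 1 / 2 by norm_num) (by norm_num)
  simp only [smul_eq_mul] at hc
  have h1 : |u - v| ≤ 2 * (1 / 2 * |u| + 1 / 2 * |v|) := by
    have := abs_sub u v; linarith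
  have h2 : |u - v| ^ P ≤ (2 * (1 / 2 * |u| + 1 / 2 * |v|)) ^ P :=
    Real.rpow_le_rpow (abs_nonneg _) h1 (by linarith)
  rw [Real.mul_rpow (by norm_num) (by positivity)] at h2
  have h3 : (0:ℝ) < 2 ^ P := by positivity
  nlinarith

lemma mid_lt {P : ℝ} (hP : 1 < P) {u v : ℝ} (h : v ≠ -u) :
    |u - v| ^ P < 2 ^ P / 2 * (|u| ^ P + |v| ^ P) := by
  have h3 : (0:ℝ) < 2 ^ P := by positivity
  by_cases hab : |u| = |v|
  · have huv : u = v := by
      rcases abs_eq_abs.1 hab with h1 | h1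
      · exact h1
      · exact absurd (by linarith) h
    subst huv
    have hu : u ≠ 0 := by rintro rfl; simp at h
    have : 0 < |u| ^ P := by positivity
    simp only [sub_self, abs_zero]
    rw [Real.zero_rpow (by linarith)]
    positivity
  · have hc := (strictConvexOn_rpow hP).2 (Set.mem_Ici.2 (abs_nonneg u))
      (Set.mem_Ici.2 (abs_nonneg v)) hab (show (0:ℝ) < 1 / 2 by norm_num)
      (show (0:ℝ) < 1 / 2 by norm_num) (by norm_num)
    simp only [smul_eq_mul] at hc
    have h1 : |u - v| ≤ 2 * (1 / 2 * |u| + 1 / 2 * |v|) := by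
      have := abs_sub u v; linarith
    have h2 : |u - v| ^ P ≤ (2 * (1 / 2 * |u| + 1 / 2 * |v|)) ^ P :=
      Real.rpow_le_rpow (abs_nonneg _) h1 (by linarith)
    rw [Real.mul_rpow (by norm_num) (by positivity)] at h2
    nlinarith

lemma eq_neg_of_sum {P : ℝ} (hP : 1 < P) {β : Type*} [Fintype β] (u v : β → ℝ)
    (h : ∑ c, |u c - v c| ^ P = 2 ^ P / 2 * (∑ c, |u c| ^ P + ∑ c, |v c| ^ P)) :
    ∀ c, v c = - u c := by
  intro c
  by_contra hc
  have : ∑ c, |u c - v c| ^ P < ∑ c, 2 ^ P / 2 * (|u c| ^ P + |v c| ^ P) :=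
    Finset.sum_lt_sum (fun c _ => mid_le hP _ _) ⟨c, Finset.mem_univ _, mid_lt hP hc⟩
  rw [← Finset.mul_sum, Finset.sum_add_distrib] at this
  exact this.ne h

/-- transfer of disjointness of supports along a scaled isometry -/
lemma disjoint_transfer {P : ℝ} (hP : 1 < P) (hP2 : P ≠ 2) {T α β : Type*} [Fintype α] [Fintype β]
    (F : T → α → ℝ) (G : T → β → ℝ) (S : ℝ) (hS : S ≠ 0)
    (h : ∀ t t', ∑ c, |G t c - G t' c| ^ P = S * ∑ a, |F t a - F t' a| ^ P)
    (t0 : T) (h0 : ∀ a, F t0 a = 0) (t t' t'' : T) (hneg : ∀ a, F t'' a = - F t' a) :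
    (∀ c, (G t c - G t0 c) * (G t' c - G t0 c) = 0) ↔ ∀ a, F t a * F t' a = 0 := by
  have hn : ∀ t, ∑ c, |G t c - G t0 c| ^ P = S * ∑ a, |F t a| ^ P := by
    intro t; rw [h]; simp [h0]
  have key : ∀ c, G t'' c - G t0 c = - (G t' c - G t0 c) := by
    apply eq_neg_of_sum hP
    rw [hn, hn]
    have e1 : ∀ c, G t' c - G t0 c - (G t'' c - G t0 c) = G t' c - G t'' c := fun c => by ring
    simp only [e1]
    rw [h]
    have e2 : ∀ a, |F t' a - F t'' a| ^ P = 2 ^ P * |F t' a| ^ P := by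
      intro a
      rw [hneg, ← Real.mul_rpow (by norm_num) (abs_nonneg _)]
      congr 1
      rw [show F t' a - - F t' a = 2 * F t' a by ring, abs_mul]; norm_num
    simp only [e2]
    simp only [hneg, abs_neg]
    rw [← Finset.mul_sum]; ring
  rw [← sum_clark_eq_zero_iff (by linarith) hP2, ← sum_clark_eq_zero_iff (by linarith) hP2]
  have : ∑ c, clark P (G t c - G t0 c) (G t' c - G t0 c) = S * ∑ a, clark P (F t a) (F t' a) := by
    unfold clark
    simp only [Finset.sum_sub_distrib, Finset.sum_add_distrib, ← Finset.mul_sum]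
    rw [hn, hn]
    have e1 : ∀ c, G t c - G t0 c + (G t' c - G t0 c) = G t c - G t'' c := fun c => by
      have := key c; linarith
    have e2 : ∀ c, G t c - G t0 c - (G t' c - G t0 c) = G t c - G t' c := fun c => by ring
    simp only [e1, e2]
    rw [h, h]
    have e3 : ∀ a, F t a - F t'' a = F t a + F t' a := fun a => by rw [hneg]; ring
    simp only [e3]
    ring
  rw [this]
  simp [hS]

end Crest.Agent.R232
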