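import Crest.Agent.R232.Band

set_option autoImplicit false
open Finset Matrix

namespace Crest.Agent.R232

variable {E J : Type} [Fintype E] [Fintype J]

/-- band-limited part of a vector -/
noncomputable def psi (K : ℝ) (m ℓ : ℕ) (g : E → ℝ) : E → ℝ := fun e => g e * phi K m ℓ (g e)

/-- top part of a vector -/
noncomputable def top (K : ℝ) (i : ℕ) (g : E → ℝ) : E → ℝ := fun e => g e * ind K i (g e)

lemma mulVec_psi (R : Matrix E E ℝ) (K : ℝ) (m ℓ : ℕ) (g : E → ℝ) (e : E) :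
    (R *ᵥ psi K m ℓ g) e = trap m (fun i => (R *ᵥ top K i g) e) ℓ := by
  simp only [mulVec, dotProduct, psi, top, phi, trap, mul_sum, ← sum_sub_distrib]
  rw [sum_comm]
  exact sum_congr rfl fun i _ => sum_congr rfl fun f _ => by ring

lemma mulVec_top_eq (R : Matrix E E ℝ) (K : ℝ) (i : ℕ) (g : E → ℝ) (hg : R *ᵥ g = 0) (e : E) :
    (R *ᵥ top K i g) e = - (R *ᵥ (g - top K i g)) e := by
  rw [mulVec_sub, hg]; simp

lemma abs_mulVec_le (R : Matrix E E ℝ) (h : E → ℝ) (e : E) :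
    |(R *ᵥ h) e| ≤ ∑ f, |R e f| * |h f| := by
  simp only [mulVec, dotProduct]
  refine (abs_sum_le_sum_abs _ _).trans (le_of_eq (sum_congr rfl fun f _ => abs_mul _ _))

lemma abs_mulVec_le_mul (R : Matrix E E ℝ) {B c : ℝ} (hR : ∀ e, ∑ f, |R e f| ≤ B) (h : E → ℝ)
    (hc : 0 ≤ c) (hh : ∀ f, |h f| ≤ c) (e : E) : |(R *ᵥ h) e| ≤ B * c := by
  refine (abs_mulVec_le R h e).trans ?_
  calc ∑ f, |R e f| * |h f| ≤ ∑ f, |R e f| * c :=
        sum_le_sum fun f _ => mul_le_mul_of_nonneg_left (hh f) (abs_nonneg _)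
    _ ≤ B * c := by rw [← sum_mul]; exact mul_le_mul_of_nonneg_right (hR e) hc

/-- weighted `L²` transfer -/
lemma l2_transfer {ι : Type} (s : Finset ι) (R : Matrix E E ℝ) (w0 wb : E → ℝ)
    (hwb : ∀ e, 0 ≤ wb e) (hwb3 : ∑ e, wb e ≤ 3)
    (hL2 : ∀ h : E → ℝ, ∑ e, w0 e * (R *ᵥ h) e ^ 2 ≤ ∑ f, wb f * h f ^ 2)
    (c : ι → ℝ) (hc : ∀ i, 0 ≤ c i) (h : ι → E → ℝ) (C : ℝ) (hC : 0 ≤ C)
    (hh : ∀ f, ∑ i ∈ s, c i * h i f ^ 2 ≤ C) :
    ∑ e, w0 e * ∑ i ∈ s, c i * (R *ᵥ h i) e ^ 2 ≤ 3 * C := by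
  calc ∑ e, w0 e * ∑ i ∈ s, c i * (R *ᵥ h i) e ^ 2
      = ∑ i ∈ s, c i * ∑ e, w0 e * (R *ᵥ h i) e ^ 2 := by
        simp only [mul_sum]; rw [sum_comm]
        exact sum_congr rfl fun i _ => sum_congr rfl fun e _ => by ring
    _ ≤ ∑ i ∈ s, c i * ∑ f, wb f * h i f ^ 2 :=
        sum_le_sum fun i _ => mul_le_mul_of_nonneg_left (hL2 _) (hc i)
    _ = ∑ f, wb f * ∑ i ∈ s, c i * h i f ^ 2 := by
        simp only [mul_sum]; rw [sum_comm]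
        exact sum_congr rfl fun i _ => sum_congr rfl fun e _ => by ring
    _ ≤ ∑ f, wb f * C := sum_le_sum fun f _ => mul_le_mul_of_nonneg_left (hh f) (hwb f)
    _ ≤ 3 * C := by rw [← sum_mul]; exact mul_le_mul_of_nonneg_right hwb3 hC

/-- row-sum `L¹` transfer -/
lemma l1_transfer {ι : Type} (s : Finset ι) (R : Matrix E E ℝ) {B : ℝ}
    (hR : ∀ e, ∑ f, |R e f| ≤ B)
    (c : ι → ℝ) (hc : ∀ i, 0 ≤ c i) (h : ι → E → ℝ) (C : ℝ) (hC : 0 ≤ C)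
    (hh : ∀ f, ∑ i ∈ s, c i * |h i f| ≤ C) (e : E) :
    ∑ i ∈ s, c i * |(R *ᵥ h i) e| ≤ B * C := by
  calc ∑ i ∈ s, c i * |(R *ᵥ h i) e| ≤ ∑ i ∈ s, c i * ∑ f, |R e f| * |h i f| :=
        sum_le_sum fun i _ => mul_le_mul_of_nonneg_left (abs_mulVec_le R _ e) (hc i)
    _ = ∑ f, |R e f| * ∑ i ∈ s, c i * |h i f| := by
        simp only [mul_sum]; rw [sum_comm]
        exact sum_congr rfl fun i _ => sum_congr rfl fun e _ => by ring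
    _ ≤ ∑ f, |R e f| * C := sum_le_sum fun f _ => mul_le_mul_of_nonneg_left (hh f) (abs_nonneg _)
    _ ≤ B * C := by rw [← sum_mul]; exact mul_le_mul_of_nonneg_right (hR e) hC

/-- row-sum variance transfer -/
lemma var_transfer {ι : Type} (s : Finset ι) (R : Matrix E E ℝ) {B : ℝ}
    (hR : ∀ e, ∑ f, |R e f| ≤ B)
    (c : ι → ℝ) (hc : ∀ i, 0 ≤ c i) (h : ι → E → ℝ) (C : ℝ) (hC : 0 ≤ C)
    (hh : ∀ f, ∑ i ∈ s, c i * h i f ^ 2 ≤ C) (e : E) :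
    ∑ i ∈ s, c i * (R *ᵥ h i) e ^ 2 ≤ B ^ 2 * C := by
  have hB : 0 ≤ B := le_trans (sum_nonneg fun f _ => abs_nonneg _) (hR e)
  have h1 : ∀ i, (R *ᵥ h i) e ^ 2 ≤ B * ∑ f, |R e f| * h i f ^ 2 := by
    intro i
    have h2 : (R *ᵥ h i) e ^ 2 ≤ (∑ f, |R e f|) * ∑ f, |R e f| * h i f ^ 2 := by
      simp only [mulVec, dotProduct]
      apply sum_sq_le_sum_mul_sum_of_sq_le_mul
      · intro f _; exact abs_nonneg _
      · intro f _; positivity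
      · intro f _
        rw [mul_pow, ← sq_abs (R e f)]
        apply le_of_eq; ring
    exact h2.trans (mul_le_mul_of_nonneg_right (hR e) (sum_nonneg fun f _ => by positivity))
  calc ∑ i ∈ s, c i * (R *ᵥ h i) e ^ 2 ≤ ∑ i ∈ s, c i * (B * ∑ f, |R e f| * h i f ^ 2) :=
        sum_le_sum fun i _ => mul_le_mul_of_nonneg_left (h1 i) (hc i)
    _ = B * ∑ f, |R e f| * ∑ i ∈ s, c i * h i f ^ 2 := by
        simp only [mul_sum]; rw [sum_comm]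
        exact sum_congr rfl fun i _ => sum_congr rfl fun e _ => by ring
    _ ≤ B * ∑ f, |R e f| * C := mul_le_mul_of_nonneg_left
        (sum_le_sum fun f _ => mul_le_mul_of_nonneg_left (hh f) (abs_nonneg _)) hB
    _ ≤ B * (B * C) := by
        rw [← sum_mul]
        exact mul_le_mul_of_nonneg_left (mul_le_mul_of_nonneg_right (hR e) hC) hB
    _ = _ := by ring

omit [Fintype E] in
lemma sum_prod_le {p C : ℝ} (hC : 0 ≤ C) (g : J → E → ℝ) (hσ : ∀ e, ∑ j, |g j e| ^ p ≤ 1)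
    (N : ℕ) (F : ℕ → ℝ → ℝ) (hF : ∀ x, ∑ i ∈ range N, F i x ≤ C * |x| ^ p) (f : E) :
    ∑ ji ∈ (univ : Finset J) ×ˢ range N, F ji.2 (g ji.1 f) ≤ C := by
  rw [sum_product]
  calc ∑ j, ∑ i ∈ range N, F i (g j f) ≤ ∑ j, C * |g j f| ^ p := sum_le_sum fun j _ => hF _
    _ ≤ C * 1 := by rw [← mul_sum]; exact mul_le_mul_of_nonneg_left (hσ f) hC
    _ = C := mul_one C

theorem garbage_gt {p : ℝ} (hp : 2 < p) : ∃ C : ℝ, 1 ≤ C ∧
    ∀ {E J : Type} [Fintype E] [Fintype J] (R : Matrix E E ℝ) (w0 wb : E → ℝ) (B K : ℝ)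
      (g : J → E → ℝ) (m Λ : ℕ), 0 < B → 0 < K → 1 ≤ m → (∀ e, 0 ≤ w0 e) →
      (∀ j, R *ᵥ g j = 0) → (∀ e, ∑ f, |R e f| ≤ B) → (∀ e, 0 ≤ wb e) → ∑ e, wb e ≤ 3 →
      (∀ h : E → ℝ, ∑ e, w0 e * (R *ᵥ h) e ^ 2 ≤ ∑ f, wb f * h f ^ 2) →
      (∀ e, ∑ j, |g j e| ^ p ≤ 1) →
      ∑ e, w0 e * ∑ j, ∑ ℓ ∈ range Λ, |(R *ᵥ psi K m ℓ (g j)) e| ^ p ≤
        C * (B ^ (p - 2) * (m : ℝ) ^ (1 - p)) := by
  obtain ⟨C1, hC1, h1⟩ := l1_interp hp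
  obtain ⟨C2, hC2, h2⟩ := top_sq hp
  have h2p : (1:ℝ) ≤ 2 ^ p := Real.one_le_rpow (by norm_num) (by linarith)
  refine ⟨2 ^ p * C1 * (3 * C2), one_le_mul_of_one_le_of_one_le
    (one_le_mul_of_one_le_of_one_le h2p hC1) (by linarith), ?_⟩
  intro E J _ _ R w0 wb B K g m Λ hB hK hm hw0 hg hR hwb hwb3 hL2 hσ
  have h3 := l2_transfer ((univ : Finset J) ×ˢ range (Λ + 3 * m)) R w0 wb hwb hwb3 hL2
    (fun ji => (K / 2 ^ ji.2) ^ (p - 2)) (fun ji => by positivity)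
    (fun ji => top K ji.2 (g ji.1)) C2 (by linarith)
    (fun f => sum_prod_le (by linarith) g hσ _
      (fun i x => (K / 2 ^ i) ^ (p - 2) * (x * ind K i x) ^ 2) (h2 K hK _) f)
  simp only [sum_product] at h3
  have h4 : ∀ e j, ∑ ℓ ∈ range Λ, |(R *ᵥ psi K m ℓ (g j)) e| ^ p ≤
      (2 ^ p * (m : ℝ) ^ (1 - p) * (C1 * B ^ (p - 2))) *
        ∑ i ∈ range (Λ + 3 * m), (K / 2 ^ i) ^ (p - 2) * (R *ᵥ top K i (g j)) e ^ 2 := by
    intro e j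
    simp only [mulVec_psi]
    refine (trap_sum_l1 (by linarith) hm _ Λ).trans ?_
    rw [mul_assoc _ (C1 * B ^ (p - 2))]
    refine mul_le_mul_of_nonneg_left ?_ (by positivity)
    refine h1 K B hK hB _ _ (fun i => ?_)
    rw [mulVec_top_eq R K i _ (hg j), abs_neg]
    exact abs_mulVec_le_mul R hR _ (by positivity) (fun f => low_abs_le hK i _) e
  calc _ ≤ ∑ e, w0 e * ∑ j, (2 ^ p * (m : ℝ) ^ (1 - p) * (C1 * B ^ (p - 2))) *
        ∑ i ∈ range (Λ + 3 * m), (K / 2 ^ i) ^ (p - 2) * (R *ᵥ top K i (g j)) e ^ 2 :=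
        sum_le_sum fun e _ => mul_le_mul_of_nonneg_left (sum_le_sum fun j _ => h4 e j) (hw0 e)
    _ = (2 ^ p * (m : ℝ) ^ (1 - p) * (C1 * B ^ (p - 2))) * ∑ e, w0 e * ∑ j,
        ∑ i ∈ range (Λ + 3 * m), (K / 2 ^ i) ^ (p - 2) * (R *ᵥ top K i (g j)) e ^ 2 := by
        rw [mul_sum]
        exact sum_congr rfl fun e _ => by rw [← mul_sum]; ring
    _ ≤ (2 ^ p * (m : ℝ) ^ (1 - p) * (C1 * B ^ (p - 2))) * (3 * C2) :=
        mul_le_mul_of_nonneg_left h3 (by positivity)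
    _ = _ := by ring

theorem garbage_lt {p : ℝ} (hp1 : 1 < p) (hp : p < 2) : ∃ C : ℝ, 1 ≤ C ∧
    ∀ {E J : Type} [Fintype E] [Fintype J] (R : Matrix E E ℝ) (w0 wb : E → ℝ) (B K : ℝ)
      (g : J → E → ℝ) (m Λ : ℕ), 0 < B → 0 < K → 1 ≤ m → (∀ e, 0 ≤ w0 e) → ∑ e, w0 e ≤ 1 →
      (∀ j, R *ᵥ g j = 0) → (∀ e, ∑ f, |R e f| ≤ B) → (∀ e, 0 ≤ wb e) → ∑ e, wb e ≤ 3 →
      (∀ h : E → ℝ, ∑ e, w0 e * (R *ᵥ h) e ^ 2 ≤ ∑ f, wb f * h f ^ 2) →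
      (∀ e, ∑ j, |g j e| ^ p ≤ 1) →
      ∑ e, w0 e * ∑ j, ∑ ℓ ∈ range Λ, |(R *ᵥ psi K m ℓ (g j)) e| ^ p ≤ C * B ^ (2 - p) := by
  obtain ⟨C1, hC1, h1⟩ := top_abs hp1
  obtain ⟨C2, hC2, h2⟩ := low_sq (by linarith) hp
  have h2p : (1:ℝ) ≤ 2 ^ p := Real.one_le_rpow (by norm_num) (by linarith)
  refine ⟨2 ^ p * 2 * (3 * C2 + C1), one_le_mul_of_one_le_of_one_le (by linarith) (by linarith), ?_⟩
  intro E J _ _ R w0 wb B K g m Λ hB hK hm hw0 hw1 hg hR hwb hwb3 hL2 hσ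
  have h3 := l2_transfer ((univ : Finset J) ×ˢ range (Λ + 3 * m)) R w0 wb hwb hwb3 hL2
    (fun ji => (K / 2 ^ ji.2) ^ (p - 2)) (fun ji => by positivity)
    (fun ji => g ji.1 - top K ji.2 (g ji.1)) C2 (by linarith)
    (fun f => sum_prod_le (by linarith) g hσ _
      (fun i x => (K / 2 ^ i) ^ (p - 2) * (x - x * ind K i x) ^ 2) (h2 K hK _) f)
  have h5 := l1_transfer ((univ : Finset J) ×ˢ range (Λ + 3 * m)) R hR
    (fun ji => (K / 2 ^ ji.2) ^ (p - 1)) (fun ji => by positivity)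
    (fun ji => top K ji.2 (g ji.1)) C1 (by linarith)
    (fun f => sum_prod_le (by linarith) g hσ _
      (fun i x => (K / 2 ^ i) ^ (p - 1) * |x * ind K i x|) (h1 K hK _) f)
  simp only [sum_product] at h3 h5
  have h4 : ∀ e j, ∑ ℓ ∈ range Λ, |(R *ᵥ psi K m ℓ (g j)) e| ^ p ≤
      2 ^ p * 2 * (B ^ (2 - p) * ∑ i ∈ range (Λ + 3 * m),
        (K / 2 ^ i) ^ (p - 2) * (R *ᵥ (g j - top K i (g j))) e ^ 2 +
        B ^ (1 - p) * ∑ i ∈ range (Λ + 3 * m), (K / 2 ^ i) ^ (p - 1) * |(R *ᵥ top K i (g j)) e|) := by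
    intro e j
    simp only [mulVec_psi]
    refine (trap_sum_lp hp1.le hm _ Λ).trans ?_
    refine mul_le_mul_of_nonneg_left ?_ (by positivity)
    rw [mul_sum, mul_sum, ← sum_add_distrib]
    refine sum_le_sum fun i _ => ?_
    refine (small_interp hp1.le hp.le (α := K / 2 ^ i / B) (by positivity) _).trans (le_of_eq ?_)
    have e1 : (R *ᵥ top K i (g j)) e ^ 2 = (R *ᵥ (g j - top K i (g j))) e ^ 2 := by
      rw [mulVec_top_eq R K i _ (hg j), neg_sq]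
    rw [e1, Real.div_rpow (by positivity) hB.le, Real.div_rpow (x := K / 2 ^ i) (by positivity) hB.le,
      show 2 - p = -(p - 2) by ring, show 1 - p = -(p - 1) by ring, Real.rpow_neg hB.le,
      Real.rpow_neg hB.le]
    ring
  have h6 : B ^ (1 - p) * B = B ^ (2 - p) := by
    nth_rewrite 2 [← Real.rpow_one B]
    rw [← Real.rpow_add hB]; congr 1; ring
  have h7 : ∑ e, w0 e * ∑ j, ∑ i ∈ range (Λ + 3 * m),
      (K / 2 ^ i) ^ (p - 1) * |(R *ᵥ top K i (g j)) e| ≤ B * C1 := by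
    calc _ ≤ ∑ e, w0 e * (B * C1) :=
          sum_le_sum fun e _ => mul_le_mul_of_nonneg_left (h5 e) (hw0 e)
      _ ≤ 1 * (B * C1) := by
          rw [← sum_mul]; exact mul_le_mul_of_nonneg_right hw1 (by positivity)
      _ = _ := one_mul _
  calc _ ≤ ∑ e, w0 e * ∑ j, 2 ^ p * 2 * (B ^ (2 - p) * ∑ i ∈ range (Λ + 3 * m),
        (K / 2 ^ i) ^ (p - 2) * (R *ᵥ (g j - top K i (g j))) e ^ 2 +
        B ^ (1 - p) * ∑ i ∈ range (Λ + 3 * m), (K / 2 ^ i) ^ (p - 1) * |(R *ᵥ top K i (g j)) e|) :=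
        sum_le_sum fun e _ => mul_le_mul_of_nonneg_left (sum_le_sum fun j _ => h4 e j) (hw0 e)
    _ = 2 ^ p * 2 * (B ^ (2 - p) * ∑ e, w0 e * ∑ j, ∑ i ∈ range (Λ + 3 * m),
        (K / 2 ^ i) ^ (p - 2) * (R *ᵥ (g j - top K i (g j))) e ^ 2 +
        B ^ (1 - p) * ∑ e, w0 e * ∑ j, ∑ i ∈ range (Λ + 3 * m),
          (K / 2 ^ i) ^ (p - 1) * |(R *ᵥ top K i (g j)) e|) := by
        rw [mul_sum, mul_sum, ← sum_add_distrib, mul_sum]
        refine sum_congr rfl fun e _ => ?_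
        rw [← mul_sum, sum_add_distrib, ← mul_sum, ← mul_sum]; ring
    _ ≤ 2 ^ p * 2 * (B ^ (2 - p) * (3 * C2) + B ^ (1 - p) * (B * C1)) := by
        refine mul_le_mul_of_nonneg_left (add_le_add ?_ ?_) (by positivity)
        · exact mul_le_mul_of_nonneg_left h3 (by positivity)
        · exact mul_le_mul_of_nonneg_left h7 (by positivity)
    _ = _ := by rw [← mul_assoc (B ^ (1 - p)), h6]; ring

end Crest.Agent.R232
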