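import Crest.Agent.R232.Local
import Crest.Agent.R232.Basic

set_option autoImplicit false
open Finset Matrix

namespace Crest.Agent.R232

/-- for every weight there is a correction operator `R` (so that `1 + R` is a projection onto `𝒢`)
with row sums at most `B` that is a weighted `L²` contraction -/
def GoodOp {E : Type} [Fintype E] (𝒢 : Submodule ℝ (E → ℝ)) (B : ℝ) : Prop :=
  ∀ w0 : E → ℝ, (∀ e, 0 ≤ w0 e) → ∑ e, w0 e ≤ 1 →
    ∃ (R : Matrix E E ℝ) (wb : E → ℝ), (∀ h : E → ℝ, h + R *ᵥ h ∈ 𝒢) ∧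
      (∀ g ∈ 𝒢, R *ᵥ g = 0) ∧ (∀ e, ∑ f, |R e f| ≤ B) ∧ (∀ e, 0 ≤ wb e) ∧ ∑ e, wb e ≤ 3 ∧
      ∀ h : E → ℝ, ∑ e, w0 e * (R *ᵥ h) e ^ 2 ≤ ∑ f, wb f * h f ^ 2

variable {X : Type} [Fintype X] [DecidableEq X]

/-- the gradient as a linear map -/
def gradL (r : X × X → ℝ) : (X → ℝ) →ₗ[ℝ] (X × X → ℝ) where
  toFun := grad r
  map_add' F G := by funext e; simp only [grad, Pi.add_apply]; ring
  map_smul' c F := by funext e; simp only [grad, Pi.smul_apply, smul_eq_mul, RingHom.id_apply]; ring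

omit [DecidableEq X] in
lemma exists_proj (r w : X × X → ℝ) (hw : ∀ e, 0 < w e) (h : X × X → ℝ) :
    ∃ u : X → ℝ, ∀ v, ∑ e, w e * (grad r u e * grad r v e) = ∑ e, w e * (h e * grad r v e) := by
  let A : (X → ℝ) →ₗ[ℝ] EuclideanSpace ℝ (X × X) :=
    { toFun := fun u => WithLp.toLp 2 (fun e => √(w e) * grad r u e)
      map_add' := fun F G => by
        ext e; simp only [grad, Pi.add_apply, PiLp.add_apply]; ring
      map_smul' := fun c F => by
        ext e; simp only [grad, Pi.smul_apply, smul_eq_mul, RingHom.id_apply, PiLp.smul_apply]; ring }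
  let y : EuclideanSpace ℝ (X × X) := WithLp.toLp 2 (fun e => √(w e) * h e)
  let K : Submodule ℝ (EuclideanSpace ℝ (X × X)) := LinearMap.range A
  obtain ⟨u, hu⟩ : K.starProjection y ∈ LinearMap.range A := K.starProjection_apply_mem y
  refine ⟨u, fun v => ?_⟩
  have h1 := K.sub_starProjection_mem_orthogonal y
  have h2 := (Submodule.mem_orthogonal' K _).1 h1 (A v) ⟨v, rfl⟩
  rw [← hu, PiLp.inner_apply] at h2
  rw [← sub_eq_zero, ← sum_sub_distrib, ← neg_eq_zero, ← sum_neg_distrib, ← h2]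
  refine sum_congr rfl fun e _ => ?_
  have h3 := Real.mul_self_sqrt (hw e).le
  simp only [A, y, PiLp.sub_apply, LinearMap.coe_mk, AddHom.coe_mk, Real.inner_apply]
  linear_combination (grad r u e * grad r v e - h e * grad r v e) * h3

lemma exists_projMat (r w : X × X → ℝ) (hw : ∀ e, 0 < w e) :
    ∃ P : Matrix (X × X) (X × X) ℝ, (∀ h, P *ᵥ h ∈ LinearMap.range (gradL r)) ∧
      (∀ g ∈ LinearMap.range (gradL r), P *ᵥ g = g) ∧
      (∀ h : X × X → ℝ, ∑ e, w e * ((P *ᵥ h) e - h e) ^ 2 ≤ ∑ e, w e * h e ^ 2) ∧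
      ∑ e, w e * ∑ f, |P e f| ≤ 24 * (∑ e, w e) * Real.log (Fintype.card X) := by
  choose u hu using fun f : X × X => exists_proj r w hw (Pi.single f 1)
  have hu' : ∀ f v, ∑ e, w e * (grad r (u f) e * grad r v e) = w f * grad r v f := by
    intro f v
    rw [hu, sum_eq_single f]
    · simp
    · intro b _ hb; simp [hb]
    · simp
  let P : Matrix (X × X) (X × X) ℝ := fun e f => grad r (u f) e
  have hP : ∀ h : X × X → ℝ, P *ᵥ h = gradL r (∑ f, h f • u f) := by
    intro h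
    rw [map_sum]
    funext e
    simp only [mulVec, dotProduct, P, map_smul, Finset.sum_apply, Pi.smul_apply, smul_eq_mul]
    exact sum_congr rfl fun f _ => mul_comm _ _
  have horth : ∀ (h : X × X → ℝ) v, ∑ e, w e * (((P *ᵥ h) e - h e) * grad r v e) = 0 := by
    intro h v
    have h1 : ∑ e, w e * ((P *ᵥ h) e * grad r v e) = ∑ f, w f * (h f * grad r v f) := by
      simp only [mulVec, dotProduct, P, sum_mul, mul_sum]
      rw [sum_comm]
      refine sum_congr rfl fun f _ => ?_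
      have := hu' f v
      calc ∑ e, w e * (grad r (u f) e * h f * grad r v e)
          = h f * ∑ e, w e * (grad r (u f) e * grad r v e) := by
            rw [mul_sum]; exact sum_congr rfl fun e _ => by ring
        _ = _ := by rw [this]; ring
    simp only [sub_mul, mul_sub, sum_sub_distrib]
    rw [h1, sub_self]
  refine ⟨P, fun h => ⟨_, (hP h).symm⟩, ?_, fun h => ?_, localisation r w hw u hu'⟩
  · rintro g ⟨F, rfl⟩
    have h1 := horth (gradL r F) (∑ f, gradL r F f • u f - F)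
    have h2 : grad r (∑ f, gradL r F f • u f - F) = P *ᵥ gradL r F - gradL r F := by
      rw [hP, ← map_sub]; rfl
    rw [h2] at h1
    have h3 := (sum_eq_zero_iff_of_nonneg (fun e _ => mul_nonneg (hw e).le (mul_self_nonneg _))).1 h1
    funext e
    have h4 := h3 e (mem_univ _)
    have h5 := mul_self_eq_zero.1 ((mul_eq_zero.1 h4).resolve_left (hw e).ne')
    linarith
  · have h1 := horth h (∑ f, h f • u f)
    have h2 : grad r (∑ f, h f • u f) = P *ᵥ h := by rw [hP]; rfl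
    rw [h2] at h1
    have h3 : ∑ e, w e * h e ^ 2 = ∑ e, w e * ((P *ᵥ h) e - h e) ^ 2 +
        ∑ e, w e * (P *ᵥ h) e ^ 2 - 2 * ∑ e, w e * (((P *ᵥ h) e - h e) * (P *ᵥ h) e) := by
      rw [mul_sum, ← sum_add_distrib, ← sum_sub_distrib]
      exact sum_congr rfl fun e _ => by ring
    have h4 : 0 ≤ ∑ e, w e * (P *ᵥ h) e ^ 2 :=
      sum_nonneg fun e _ => mul_nonneg (hw e).le (sq_nonneg _)
    linarith

theorem goodOp_grad (r : X × X → ℝ) (hX : 2 ≤ Fintype.card X) :
    GoodOp (LinearMap.range (gradL r)) (80 * Real.log (Fintype.card X)) := by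
  intro w0 hw0 hw1
  have hne : Nonempty X := Fintype.card_pos_iff.1 (by omega)
  set L := Real.log (Fintype.card X) with hL
  have hL2 : 1 / 2 ≤ L := by
    have h1 : Real.log 2 ≤ L := Real.log_le_log (by norm_num) (by exact_mod_cast hX)
    have := Real.log_two_gt_d9
    linarith
  set N : ℝ := (Fintype.card (X × X) : ℝ) with hN
  have hN1 : 1 ≤ N := by rw [hN]; exact_mod_cast Fintype.card_pos
  have hN0 : 0 < N := by linarith
  let 𝒜 := {ν : X × X → ℝ // (∀ e, 0 ≤ ν e) ∧ ∑ e, ν e = 1}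
  let W : 𝒜 → X × X → ℝ := fun ν e => w0 e + ν.1 e + 1 / N
  have hW : ∀ ν e, 0 < W ν e := fun ν e => by
    have := hw0 e; have := ν.2.1 e; simp only [W]; positivity
  have hWs : ∀ ν, ∑ e, W ν e ≤ 3 := by
    intro ν
    simp only [W, sum_add_distrib, ν.2.2, sum_const, card_univ, nsmul_eq_mul, ← hN]
    rw [mul_one_div_cancel hN0.ne']
    linarith
  choose P hP1 hP2 hP3 hP4 using fun ν : 𝒜 => exists_projMat r (W ν) (hW ν)
  let ρ : 𝒜 → X × X → ℝ := fun ν e => ∑ f, |P ν e f|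
  have hρ0 : ∀ ν e, 0 ≤ ρ ν e := fun ν e => sum_nonneg fun f _ => abs_nonneg _
  have hρ : ∀ ν, ∑ e, W ν e * ρ ν e ≤ 72 * L := by
    intro ν
    have h1 := hP4 ν
    have h2 := mul_le_mul_of_nonneg_right (hWs ν) (show 0 ≤ 24 * L by linarith)
    simp only [ρ]
    linarith
  have hρ1 : ∀ ν e, ρ ν e ≤ 72 * L * N := by
    intro ν e
    have h1 : W ν e * ρ ν e ≤ ∑ e, W ν e * ρ ν e :=
      single_le_sum (f := fun e => W ν e * ρ ν e)
        (fun e _ => mul_nonneg (hW ν e).le (hρ0 ν e)) (mem_univ e)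
    have h2 : 1 / N ≤ W ν e := by
      have := hw0 e; have := ν.2.1 e; simp only [W]; linarith
    have h3 := mul_le_mul_of_nonneg_right h2 (hρ0 ν e)
    rw [one_div_mul_eq_div, div_le_iff₀ hN0] at h3
    have h4 := mul_le_mul_of_nonneg_right (h1.trans (hρ ν)) hN0.le
    linarith
  set M : ℝ := 72 * L * N + 72 * L with hM
  obtain ⟨d, hd⟩ := exists_nat_ge (M ^ 2 * Real.log N * 4 + 1)
  have hlogN : 0 ≤ Real.log N := Real.log_nonneg hN1
  have hd0 : (0:ℝ) < d := by
    have : 0 ≤ M ^ 2 * Real.log N * 4 := by positivity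
    linarith
  obtain ⟨α, hα⟩ := mwu (fun (ν : 𝒜) e => ρ ν e - 72 * L) M (1 / 2) (by norm_num)
    (by rw [hM]; nlinarith)
    (fun ν e => by
      have := hρ1 ν e; have := hρ0 ν e
      rw [abs_le, hM]; constructor <;> nlinarith)
    (fun ξ hξ => by
      have hs : 0 < ∑ e, ξ e := sum_pos (fun e _ => hξ e) univ_nonempty
      let ν : 𝒜 := ⟨fun e => ξ e / ∑ e, ξ e, fun e => div_nonneg (hξ e).le hs.le,
        by rw [← sum_div, div_self hs.ne']⟩
      refine ⟨ν, ?_⟩
      have h1 : ∑ e, ν.1 e * ρ ν e ≤ ∑ e, W ν e * ρ ν e := by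
        refine sum_le_sum fun e _ => mul_le_mul_of_nonneg_right ?_ (hρ0 ν e)
        have := hw0 e
        have : 0 < 1 / N := by positivity
        simp only [W]; linarith
      have h2 : ∑ e, ξ e * ρ ν e = (∑ e, ξ e) * ∑ e, ν.1 e * ρ ν e := by
        rw [mul_sum]
        refine sum_congr rfl fun e _ => ?_
        simp only [ν]; field_simp
      simp only [mul_sub, sum_sub_distrib, ← sum_mul]
      rw [h2]
      have := mul_le_mul_of_nonneg_left (h1.trans (hρ ν)) hs.le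
      linarith)
    d (by rw [← hN]; linarith)
  let T : Matrix (X × X) (X × X) ℝ := (d : ℝ)⁻¹ • ∑ k, P (α k)
  have hT : ∀ h : X × X → ℝ, T *ᵥ h = (d : ℝ)⁻¹ • ∑ k, P (α k) *ᵥ h := by
    intro h
    simp only [T, smul_mulVec, sum_mulVec]
  refine ⟨T - 1, fun f => (d : ℝ)⁻¹ * ∑ k, W (α k) f, fun h => ?_, fun g hg => ?_, fun e => ?_,
    fun e => ?_, ?_, fun h => ?_⟩
  · rw [sub_mulVec, one_mulVec, add_sub_cancel, hT]
    exact Submodule.smul_mem _ _ (Submodule.sum_mem _ fun k _ => hP1 _ _)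
  · rw [sub_mulVec, one_mulVec, hT]
    simp only [hP2 _ g hg, sum_const, card_univ, Fintype.card_fin]
    rw [← Nat.cast_smul_eq_nsmul ℝ, smul_smul, inv_mul_cancel₀ hd0.ne', one_smul, sub_self]
  · have h1 : ∀ f, |(T - 1) e f| ≤ (d : ℝ)⁻¹ * ∑ k, |P (α k) e f| + (if e = f then 1 else 0) := by
      intro f
      rw [Matrix.sub_apply]
      refine (abs_sub _ _).trans (add_le_add ?_ ?_)
      · simp only [T, Matrix.smul_apply, Matrix.sum_apply, smul_eq_mul, abs_mul]
        rw [abs_of_pos (inv_pos.2 hd0)]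
        exact mul_le_mul_of_nonneg_left (abs_sum_le_sum_abs _ _) (inv_pos.2 hd0).le
      · rw [Matrix.one_apply]; split_ifs <;> simp
    refine (sum_le_sum fun f _ => h1 f).trans ?_
    rw [sum_add_distrib, ← mul_sum, sum_comm]
    simp only [sum_ite_eq, mem_univ, if_true]
    have h2 := hα e
    simp only [sum_sub_distrib, sum_const, card_univ, Fintype.card_fin, nsmul_eq_mul, ρ] at h2
    have h3 : (d : ℝ)⁻¹ * ∑ k, ∑ f, |P (α k) e f| ≤ 72 * L + 1 := by
      rw [inv_mul_le_iff₀ hd0]; linarith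
    linarith
  · exact mul_nonneg (inv_pos.2 hd0).le (sum_nonneg fun k _ => (hW _ _).le)
  · rw [← mul_sum, sum_comm, inv_mul_le_iff₀ hd0]
    calc ∑ k, ∑ e, W (α k) e ≤ ∑ _k : Fin d, (3:ℝ) := sum_le_sum fun k _ => hWs _
      _ = d * 3 := by simp
  · have h1 : ∀ e, ((T - 1) *ᵥ h) e ^ 2 ≤ (d : ℝ)⁻¹ * ∑ k, ((P (α k) *ᵥ h) e - h e) ^ 2 := by
      intro e
      have h2 : ((T - 1) *ᵥ h) e = (d : ℝ)⁻¹ * ∑ k, ((P (α k) *ᵥ h) e - h e) := by
        rw [sub_mulVec, one_mulVec, hT]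
        simp only [Pi.sub_apply, Pi.smul_apply, Finset.sum_apply, smul_eq_mul, sum_sub_distrib,
          sum_const, card_univ, Fintype.card_fin, nsmul_eq_mul]
        field_simp
      have h3 := sq_sum_le_card_mul_sum_sq (s := (univ : Finset (Fin d)))
        (f := fun k => (P (α k) *ᵥ h) e - h e)
      simp only [card_univ, Fintype.card_fin] at h3
      rw [h2, mul_pow, sq (d : ℝ)⁻¹, mul_assoc]
      refine mul_le_mul_of_nonneg_left ?_ (inv_pos.2 hd0).le
      rw [inv_mul_le_iff₀ hd0]; exact h3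
    calc ∑ e, w0 e * ((T - 1) *ᵥ h) e ^ 2
        ≤ ∑ e, (d : ℝ)⁻¹ * ∑ k, W (α k) e * ((P (α k) *ᵥ h) e - h e) ^ 2 := by
          refine sum_le_sum fun e _ => ?_
          refine (mul_le_mul_of_nonneg_left (h1 e) (hw0 e)).trans ?_
          rw [mul_left_comm, mul_sum]
          refine mul_le_mul_of_nonneg_left (sum_le_sum fun k _ => ?_) (inv_pos.2 hd0).le
          refine mul_le_mul_of_nonneg_right ?_ (sq_nonneg _)
          have := (α k).2.1 e
          have : 0 < 1 / N := by positivity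
          simp only [W]; linarith
      _ = (d : ℝ)⁻¹ * ∑ k, ∑ e, W (α k) e * ((P (α k) *ᵥ h) e - h e) ^ 2 := by
          rw [← mul_sum, sum_comm]
      _ ≤ (d : ℝ)⁻¹ * ∑ k, ∑ e, W (α k) e * h e ^ 2 :=
          mul_le_mul_of_nonneg_left (sum_le_sum fun k _ => hP3 _ _) (inv_pos.2 hd0).le
      _ = _ := by
          rw [sum_comm, mul_sum]
          refine sum_congr rfl fun e _ => ?_
          rw [← sum_mul]; ring

end Crest.Agent.R232
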