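import Crest.Agent.R232.Prob
import Crest.Agent.R232.Garbage
import Crest.Agent.R232.Op

set_option autoImplicit false
open Finset Matrix

namespace Crest.Agent.R232

/-- the exponent -/
noncomputable def gam (p : ℝ) : ℝ := if p < 2 then 2 - p else 1 - 2 / p

lemma gam_pos {p : ℝ} (hp : 1 < p) (hp2 : p ≠ 2) : 0 < gam p := by
  unfold gam
  split_ifs with h
  · linarith
  · have : 2 < p := lt_of_le_of_ne (not_lt.1 h) (Ne.symm hp2)
    rw [sub_pos, div_lt_one (by linarith)]; exact this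

lemma le_exp_rpow {B γ : ℝ} (hB : 0 < B) (hγ : 0 < γ) : B ≤ Real.exp (γ⁻¹ * B ^ γ) := by
  have h1 := Real.log_le_sub_one_of_pos (show 0 < B ^ γ by positivity)
  rw [Real.log_rpow hB] at h1
  rw [← Real.log_le_iff_le_exp hB, le_inv_mul_iff₀ hγ]
  linarith

lemma le_exp_mul {c Y : ℝ} (hc : 0 ≤ c) (hY : 1 ≤ Y) : c ≤ Real.exp (c * Y) := by
  have := Real.add_one_le_exp (c * Y)
  nlinarith

theorem garbage {p : ℝ} (hp1 : 1 < p) (hp2 : p ≠ 2) : ∃ C : ℝ, 1 ≤ C ∧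
    ∀ {E J : Type} [Fintype E] [Fintype J] (R : Matrix E E ℝ) (w0 wb : E → ℝ) (B K κ : ℝ)
      (g : J → E → ℝ) (m Λ : ℕ), 0 < B → 0 < K → 1 ≤ m → 1 ≤ κ → κ * B ^ gam p ≤ m →
      (∀ e, 0 ≤ w0 e) → ∑ e, w0 e ≤ 1 →
      (∀ j, R *ᵥ g j = 0) → (∀ e, ∑ f, |R e f| ≤ B) → (∀ e, 0 ≤ wb e) → ∑ e, wb e ≤ 3 →
      (∀ h : E → ℝ, ∑ e, w0 e * (R *ᵥ h) e ^ 2 ≤ ∑ f, wb f * h f ^ 2) →
      (∀ e, ∑ j, |g j e| ^ p ≤ 1) →
      ∑ e, w0 e * ∑ j, ∑ ℓ ∈ range Λ, |(R *ᵥ psi K m ℓ (g j)) e| ^ p ≤ C * (m / κ) := by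
  rcases lt_or_gt_of_ne hp2 with hlt | hgt
  · obtain ⟨C, hC, h⟩ := garbage_lt hp1 hlt
    refine ⟨C, hC, ?_⟩
    intro E J _ _ R w0 wb B K κ g m Λ hB hK hm hκ hκm hw0 hw1 hg hR hwb hwb3 hL2 hσ
    refine (h R w0 wb B K g m Λ hB hK hm hw0 hw1 hg hR hwb hwb3 hL2 hσ).trans ?_
    refine mul_le_mul_of_nonneg_left ?_ (by linarith)
    rw [gam, if_pos hlt] at hκm
    rw [le_div_iff₀ (by linarith)]; linarith
  · obtain ⟨C, hC, h⟩ := garbage_gt hgt
    refine ⟨C, hC, ?_⟩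
    intro E J _ _ R w0 wb B K κ g m Λ hB hK hm hκ hκm hw0 hw1 hg hR hwb hwb3 hL2 hσ
    refine (h R w0 wb B K g m Λ hB hK hm hw0 hg hR hwb hwb3 hL2 hσ).trans ?_
    refine mul_le_mul_of_nonneg_left ?_ (by linarith)
    rw [gam, if_neg (by linarith)] at hκm
    have hm0 : (0:ℝ) < m := by exact_mod_cast hm
    have h1 := Real.rpow_le_rpow (by positivity) hκm (show 0 ≤ p by linarith)
    rw [Real.mul_rpow (by linarith) (by positivity), ← Real.rpow_mul hB.le,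
      show (1 - 2 / p) * p = p - 2 by field_simp] at h1
    have h2 : κ ≤ κ ^ p := Real.self_le_rpow_of_one_le hκ hp1.le
    have h3 : (m:ℝ) ^ p * (m:ℝ) ^ (1 - p) = m := by
      rw [← Real.rpow_add hm0]; simp
    have h4 : 0 ≤ (m:ℝ) ^ (1 - p) := by positivity
    have h5 : 0 ≤ B ^ (p - 2) := by positivity
    rw [le_div_iff₀ (by linarith)]
    calc B ^ (p - 2) * (m:ℝ) ^ (1 - p) * κ = κ * B ^ (p - 2) * (m:ℝ) ^ (1 - p) := by ring
      _ ≤ κ ^ p * B ^ (p - 2) * (m:ℝ) ^ (1 - p) :=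
          mul_le_mul_of_nonneg_right (mul_le_mul_of_nonneg_right h2 h5) h4
      _ ≤ (m:ℝ) ^ p * (m:ℝ) ^ (1 - p) := mul_le_mul_of_nonneg_right h1 h4
      _ = m := h3

lemma exists_top_level {E J : Type} [Fintype E] [Fintype J] (g : J → E → ℝ) {K : ℝ} (hK : 0 < K) :
    ∃ Λ : ℕ, ∀ j e, g j e ≠ 0 → K / 2 ^ Λ ≤ |g j e| := by
  have h : ∀ je : J × E, ∃ Λ : ℕ, g je.1 je.2 ≠ 0 → K / 2 ^ Λ ≤ |g je.1 je.2| := by
    intro je
    by_cases h0 : g je.1 je.2 = 0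
    · exact ⟨0, fun h => absurd h0 h⟩
    · have h1 : 0 < |g je.1 je.2| := abs_pos.2 h0
      obtain ⟨n, hn⟩ := pow_unbounded_of_one_lt (K / |g je.1 je.2|) (show (1:ℝ) < 2 by norm_num)
      refine ⟨n, fun _ => ?_⟩
      rw [div_lt_iff₀ h1] at hn
      rw [div_le_iff₀ (by positivity)]; linarith
  choose Λ hΛ using h
  obtain ⟨N, hN⟩ := Finite.exists_le Λ
  exact ⟨N, fun j e hje => (level_anti hK (hN (j, e))).trans (hΛ (j, e) hje)⟩

lemma exists_tau {p η C1 : ℝ} (hp1 : 1 < p) (hp2 : p ≠ 2) (hη : 0 < η) (hC1 : 1 ≤ C1) :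
    ∃ c : ℝ, 0 < c ∧ ∀ B : ℝ, 1 ≤ B → ∃ τ : ℝ, 1 < τ ∧ τ ≤ Real.exp (c * B ^ gam p) ∧
      C1 / τ ^ p ≤ η / (4 * 2 ^ p) ∧
      (p ≤ 2 ∨ ∀ {J : Type} [Fintype J] (x : J → ℝ) (m Λ : ℕ), 1 ≤ m → ∑ j, |x j| ^ p ≤ 1 →
        ∑ ji ∈ (univ : Finset J) ×ˢ range Λ, ((1:ℝ) / 2 ^ ji.2) ^ p *
          (2 ^ ji.2 * (x ji.1 * phi (τ * 2 ^ (3 * m)) m ji.2 (x ji.1))) ^ 2 ≤ 1 / B ^ 2) := by
  have hγ := gam_pos hp1 hp2
  have key : ∀ c : ℝ, 4 * 2 ^ p * C1 / η ≤ c → ∀ B : ℝ, 1 ≤ B →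
      1 < Real.exp (c * B ^ gam p) ∧ C1 / Real.exp (c * B ^ gam p) ^ p ≤ η / (4 * 2 ^ p) := by
    intro c hc B hB
    have hc0 : 0 < c := lt_of_lt_of_le (by positivity) hc
    have hY : 1 ≤ B ^ gam p := Real.one_le_rpow hB hγ.le
    have h1 : 1 < Real.exp (c * B ^ gam p) := Real.one_lt_exp_iff.2 (by positivity)
    refine ⟨h1, ?_⟩
    have h2 := le_exp_mul hc0.le hY
    have h3 := Real.self_le_rpow_of_one_le h1.le hp1.le
    rw [div_le_iff₀ hη] at hc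
    rw [div_le_div_iff₀ (by positivity) (by positivity)]
    have h4 := mul_le_mul_of_nonneg_left (h2.trans h3) hη.le
    linarith
  rcases lt_or_gt_of_ne hp2 with hlt | hgt
  · refine ⟨4 * 2 ^ p * C1 / η, by positivity, fun B hB => ⟨_, (key _ le_rfl B hB).1, le_rfl,
      (key _ le_rfl B hB).2, Or.inl hlt.le⟩⟩
  · obtain ⟨Cv, hCv, hv⟩ := band_var hgt
    have hp2' : 0 < p - 2 := by linarith
    have h0 : 0 ≤ (2 * (gam p)⁻¹ + Cv) / (p - 2) := by positivity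
    have h0' : 0 ≤ 4 * 2 ^ p * C1 / η := by positivity
    set c := 4 * 2 ^ p * C1 / η + (2 * (gam p)⁻¹ + Cv) / (p - 2) with hc
    refine ⟨c, by positivity, fun B hB => ⟨_, (key c (by linarith) B hB).1, le_rfl,
      (key c (by linarith) B hB).2, Or.inr ?_⟩⟩
    intro J _ x m Λ hm hx
    set τ := Real.exp (c * B ^ gam p) with hτ
    have hτ0 : 0 < τ := Real.exp_pos _
    have hY : 1 ≤ B ^ gam p := Real.one_le_rpow hB hγ.le
    have h1 : Cv / τ ^ (p - 2) ≤ 1 / B ^ 2 := by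
      rw [div_le_div_iff₀ (by positivity) (by positivity), one_mul, hτ, ← Real.exp_mul]
      have h2 := le_exp_rpow (show 0 < B by linarith) hγ
      have h3 := le_exp_mul (show 0 ≤ Cv by linarith) hY
      have h4 : B ^ 2 ≤ Real.exp ((gam p)⁻¹ * B ^ gam p) ^ 2 := pow_le_pow_left₀ (by linarith) h2 2
      rw [← Real.exp_nat_mul] at h4
      refine (mul_le_mul h3 h4 (by positivity) (by positivity)).trans ?_
      rw [← Real.exp_add, Real.exp_le_exp]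
      have h5 : 2 * (gam p)⁻¹ + Cv ≤ c * (p - 2) := by
        rw [hc, add_mul, div_mul_cancel₀ _ hp2'.ne']
        have : 0 ≤ 4 * 2 ^ p * C1 / η * (p - 2) := by positivity
        linarith
      have h6 := mul_le_mul_of_nonneg_right h5 (show 0 ≤ B ^ gam p by linarith)
      push_cast
      linarith
    rw [sum_product]
    calc _ ≤ ∑ j, Cv / τ ^ (p - 2) * |x j| ^ p := sum_le_sum fun j _ => hv τ hτ0 m Λ hm (x j)
      _ ≤ Cv / τ ^ (p - 2) * 1 := by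
          rw [← mul_sum]; exact mul_le_mul_of_nonneg_left hx (by positivity)
      _ ≤ _ := by linarith

lemma tail_cond {p θ N : ℝ} (hp : 1 ≤ p) (hθ : 1 ≤ θ) (hN0 : 0 ≤ N) (hN : N ≤ Real.exp θ) :
    6 * N * (θ ^ p * (2 * p) ^ p) ≤ Real.exp (2 * (7 + p + 2 * p ^ 2) * θ ^ 2 / (2 * θ)) := by
  have h1 : (6:ℝ) ≤ Real.exp (6 * θ) := le_exp_mul (by norm_num) hθ
  have h2 : θ ^ p ≤ Real.exp (θ * p) := by
    rw [Real.exp_mul]
    exact Real.rpow_le_rpow (by linarith) (by have := Real.add_one_le_exp θ; linarith) (by linarith)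
  have h3 : (2 * p) ^ p ≤ Real.exp (2 * p * θ * p) := by
    rw [Real.exp_mul]
    exact Real.rpow_le_rpow (by linarith) (le_exp_mul (by linarith) hθ) (by linarith)
  have h4 := mul_le_mul (mul_le_mul h1 hN hN0 (by positivity))
    (mul_le_mul h2 h3 (by positivity) (by positivity)) (by positivity) (by positivity)
  refine h4.trans (le_of_eq ?_)
  rw [← Real.exp_add, ← Real.exp_add, ← Real.exp_add]
  congr 1
  field_simp
  ring

set_option maxHeartbeats 2000000 in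
theorem core {p ε : ℝ} (hp1 : 1 < p) (hp2 : p ≠ 2) (hε : 0 < ε) (hε1 : ε ≤ 1) : ∃ c : ℝ, 0 < c ∧
    ∀ {E J : Type} [Fintype E] [Fintype J] (𝒢 : Submodule ℝ (E → ℝ)) (B : ℝ) (g : J → E → ℝ),
      1 ≤ B → (Fintype.card E : ℝ) ≤ Real.exp B → GoodOp 𝒢 B → (∀ j, g j ∈ 𝒢) →
      (∀ e, ∑ j, |g j e| ^ p ≤ 1) →
      ∃ S M : ℝ, 1 ≤ S ∧ 0 ≤ M ∧ M ^ p + 2 * S ≤ Real.exp (c * B ^ gam p) ∧
        ∀ ξ : E → ℝ, ∃ y ∈ 𝒢, (∀ e, |y e| ≤ M) ∧
          ∑ e, ξ e * (|y e| ^ p - S * ∑ j, |g j e| ^ p) ≤ ε * S * ∑ e, |ξ e| := by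
  have hγ := gam_pos hp1 hp2
  have hp0 : 0 < p := by linarith
  obtain ⟨C1, hC1, hprob⟩ := prob_step hp1.le (η := ε / 6) (by positivity) (by linarith)
  obtain ⟨C2, hC2, hgarb⟩ := garbage hp1 hp2
  obtain ⟨C3, hC3, hsparse⟩ := band_sparse hp0
  obtain ⟨cτ, hcτ, hτ⟩ := exists_tau hp1 hp2 (η := ε / 6) (by positivity) hC3
  set κ : ℝ := 2 * C1 * (C2 + 1) / ε with hκdef
  have hκ : 1 ≤ κ := by rw [hκdef, le_div_iff₀ hε]; nlinarith
  set c1 : ℝ := 2 * (7 + p + 2 * p ^ 2) with hc1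
  have hc1' : 1 ≤ c1 := by rw [hc1]; nlinarith
  set c2 : ℝ := 4 + (gam p)⁻¹ + cτ + 3 * (κ + 1) with hc2
  have hc2' : 0 < c2 := by positivity
  refine ⟨(c1 + 2 * c2) * p + 6 * (κ + 1) + 2, by positivity, ?_⟩
  intro E J _ _ 𝒢 B g hB hE hop hg hσ
  set Y := B ^ gam p with hYdef
  have hY : 1 ≤ Y := Real.one_le_rpow hB hγ.le
  obtain ⟨τ, hτ1, hτ2, hτ3, hτ4⟩ := hτ B hB
  set m : ℕ := ⌈κ * Y⌉₊ with hmdef
  have hm1 : κ * Y ≤ m := Nat.le_ceil _
  have hm2 : (m:ℝ) ≤ (κ + 1) * Y := by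
    have := Nat.ceil_lt_add_one (show 0 ≤ κ * Y by positivity)
    linarith
  have hm0 : (1:ℝ) ≤ m := by nlinarith
  have hm : 1 ≤ m := by exact_mod_cast hm0
  set K : ℝ := τ * 2 ^ (3 * m) with hKdef
  have hK1 : 1 ≤ K := one_le_mul_of_one_le_of_one_le hτ1.le (one_le_pow₀ (by norm_num))
  have hK : 0 < K := by linarith
  obtain ⟨Λ, hΛ⟩ := exists_top_level g hK
  set θ : ℝ := 2 * (B + 1) * K with hθdef
  have hθB : B ≤ θ := by nlinarith
  have hθ1 : 1 ≤ θ := hB.trans hθB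
  have hS := SS_bounds hp0.le hm
  have hθexp : θ ≤ Real.exp (c2 * Y) := by
    have h1 : (4:ℝ) ≤ Real.exp (4 * Y) := le_exp_mul (by norm_num) hY
    have h2 := le_exp_rpow (show 0 < B by linarith) hγ
    have h3 : (2:ℝ) ^ (3 * m) ≤ Real.exp (3 * (κ + 1) * Y) := by
      calc (2:ℝ) ^ (3 * m) ≤ Real.exp 1 ^ (3 * m) :=
            pow_le_pow_left₀ (by norm_num) (by have := Real.add_one_le_exp 1; linarith) _
        _ = Real.exp (3 * m) := by rw [← Real.exp_nat_mul]; congr 1; push_cast; ring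
        _ ≤ _ := Real.exp_le_exp.2 (by linarith)
    have h4 := mul_le_mul (mul_le_mul h1 h2 (by linarith) (by positivity))
      (mul_le_mul hτ2 h3 (by positivity) (by positivity)) (by positivity) (by positivity)
    rw [← Real.exp_add, ← Real.exp_add, ← Real.exp_add] at h4
    calc θ ≤ 4 * B * K := by rw [hθdef]; nlinarith
      _ ≤ _ := h4
      _ = _ := by congr 1; rw [hc2]; ring
  refine ⟨SS p m, c1 * θ ^ 2, by linarith, by positivity, ?_, fun ξ => ?_⟩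
  · have h1 : c1 * θ ^ 2 ≤ Real.exp ((c1 + 2 * c2) * Y) := by
      have h2 := le_exp_mul (show 0 ≤ c1 by linarith) hY
      have h3 : θ ^ 2 ≤ Real.exp (c2 * Y) ^ 2 := pow_le_pow_left₀ (by linarith) hθexp 2
      rw [← Real.exp_nat_mul] at h3
      refine (mul_le_mul h2 h3 (by positivity) (by positivity)).trans (le_of_eq ?_)
      rw [← Real.exp_add]; congr 1; push_cast; ring
    have h2 := Real.rpow_le_rpow (by positivity) h1 hp0.le
    rw [← Real.exp_mul] at h2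
    have h3 : 2 * SS p m ≤ Real.exp (6 * (κ + 1) * Y) := by
      have := Real.add_one_le_exp (6 * (κ + 1) * Y); linarith
    have h4 : (2:ℝ) ≤ Real.exp (2 * Y) := le_exp_mul (by norm_num) hY
    have h5 : 1 ≤ Real.exp ((c1 + 2 * c2) * Y * p) := Real.one_le_exp (by positivity)
    have h6 : 1 ≤ Real.exp (6 * (κ + 1) * Y) := Real.one_le_exp (by positivity)
    have h7 : Real.exp (((c1 + 2 * c2) * p + 6 * (κ + 1) + 2) * Y) =
        Real.exp ((c1 + 2 * c2) * Y * p) * Real.exp (6 * (κ + 1) * Y) * Real.exp (2 * Y) := by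
      rw [← Real.exp_add, ← Real.exp_add]; congr 1; ring
    rw [h7]
    have h8 := mul_le_mul_of_nonneg_left h4 (show 0 ≤ Real.exp ((c1 + 2 * c2) * Y * p) *
      Real.exp (6 * (κ + 1) * Y) by positivity)
    nlinarith
  set T := ∑ e, |ξ e| with hT
  have hT0 : 0 ≤ T := sum_nonneg fun e _ => abs_nonneg _
  let w0 : E → ℝ := fun e => |ξ e| / T
  have hw0 : ∀ e, 0 ≤ w0 e := fun e => div_nonneg (abs_nonneg _) hT0
  have hw1 : ∑ e, w0 e ≤ 1 := by
    simp only [w0]; rw [← sum_div]; exact div_self_le_one _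
  have hw2 : ∀ e, |ξ e| = T * w0 e := by
    intro e
    rcases eq_or_lt_of_le hT0 with h0 | h0
    · have := (sum_eq_zero_iff_of_nonneg (fun e _ => abs_nonneg (ξ e))).1 h0.symm e (mem_univ _)
      rw [this, ← h0, zero_mul]
    · simp only [w0]; field_simp
  obtain ⟨R, wb, hR1, hR2, hR3, hwb, hwb3, hL2⟩ := hop w0 hw0 hw1
  let a : J × ℕ → E → ℝ := fun i => (2:ℝ) ^ i.2 • psi K m i.2 (g i.1)
  let z : J × ℕ → 𝒢 := fun i => ⟨a i + R *ᵥ a i, hR1 _⟩
  let q : J × ℕ → ℝ := fun i => ((1:ℝ) / 2 ^ i.2) ^ p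
  have ha : ∀ i e, a i e = 2 ^ i.2 * (g i.1 e * phi K m i.2 (g i.1 e)) := fun i e => rfl
  have hza : ∀ i e, (z i).1 e - a i e = (R *ᵥ a i) e := fun i e => by simp [z]
  have hq0 : ∀ i, 0 ≤ q i := fun i => by positivity
  have hq1 : ∀ i, q i ≤ 1 := fun i => Real.rpow_le_one (by positivity)
    (by rw [div_le_one (by positivity)]; exact one_le_pow₀ (by norm_num)) hp0.le
  have hqabs : ∀ (ℓ : ℕ) (x : ℝ), ((1:ℝ) / 2 ^ ℓ) ^ p * |2 ^ ℓ * x| ^ p = |x| ^ p := by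
    intro ℓ x
    rw [← Real.mul_rpow (by positivity) (abs_nonneg _), abs_mul,
      abs_of_pos (show (0:ℝ) < 2 ^ ℓ by positivity)]
    congr 1; field_simp
  have hg1 : ∀ j e, |g j e| ≤ 1 := by
    intro j e
    have h1 : |g j e| ^ p ≤ 1 := (single_le_sum (f := fun j => |g j e| ^ p)
      (fun j _ => by positivity) (mem_univ j)).trans (hσ e)
    by_contra hcon
    have := Real.one_lt_rpow (not_le.1 hcon) hp0
    linarith
  let s : Finset (J × ℕ) := univ ×ˢ range Λ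
  have hmain : ∀ e, ∑ i ∈ s, q i * |a i e| ^ p = SS p m * ∑ j, |g j e| ^ p := by
    intro e
    simp only [s, sum_product, q, ha, hqabs]
    rw [mul_sum]
    exact sum_congr rfl fun j _ => main_mass hp0 hτ1 hm (hg1 j e) (hΛ j e)
  classical
  have hsp : ∀ e, ∑ i ∈ s, (if a i e = 0 then 0 else q i) ≤ ε / 6 / (4 * 2 ^ p) := by
    intro e
    refine le_trans ?_ hτ3
    have := sum_prod_le (C := C3 / τ ^ p) (by positivity) g hσ Λ
      (fun ℓ x => if 2 ^ ℓ * (x * phi (τ * 2 ^ (3 * m)) m ℓ x) = 0 then 0 else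
        ((1:ℝ) / 2 ^ ℓ) ^ p) (fun x => hsparse τ (by linarith) m Λ x) e
    exact this
  have haK : ∀ i e, |a i e| ≤ K := fun i e => band_upper hK hm _ _
  have haV : ∀ e, ∑ i ∈ s, q i * a i e ^ 2 ≤ K ^ 2 := by
    intro e
    have h1 : ε / 6 / (4 * 2 ^ p) ≤ 1 := by
      have h2p : (1:ℝ) ≤ 2 ^ p := Real.one_le_rpow (by norm_num) hp0.le
      rw [div_le_one (by positivity)]; linarith
    calc ∑ i ∈ s, q i * a i e ^ 2 ≤ ∑ i ∈ s, K ^ 2 * (if a i e = 0 then 0 else q i) := by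
          refine sum_le_sum fun i _ => ?_
          split_ifs with h
          · simp [h]
          · rw [mul_comm]
            exact mul_le_mul_of_nonneg_right
              (sq_le_sq' (abs_le.1 (haK i e)).1 (abs_le.1 (haK i e)).2) (hq0 i)
      _ ≤ K ^ 2 * 1 := by
          rw [← mul_sum]; exact mul_le_mul_of_nonneg_left ((hsp e).trans h1) (by positivity)
      _ = _ := mul_one _
  obtain ⟨y, hy1, hy2, hy3⟩ := hprob 𝒢 s q z a θ (c1 * θ ^ 2) hq0 hq1 hsp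
    (hτ4.imp id fun h e => by
      simp only [hza]
      have := var_transfer s R hR3 q hq0 a (1 / B ^ 2) (by positivity)
        (fun f => h (fun j => g j f) m Λ hm (hσ f)) e
      rwa [mul_one_div_cancel (by positivity)] at this)
    (by linarith)
    (fun i e => by
      have h1 := abs_mulVec_le_mul R hR3 (a i) hK.le (haK i) e
      have h2 := abs_add_le (a i e) ((R *ᵥ a i) e)
      have h3 := haK i e
      show |a i e + (R *ᵥ a i) e| ≤ θ
      rw [hθdef]; nlinarith)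
    (fun e => by
      have h1 := var_transfer s R hR3 q hq0 a (K ^ 2) (by positivity) haV e
      have h2 := haV e
      have h3 : ∑ i ∈ s, q i * (z i).1 e ^ 2 ≤
          ∑ i ∈ s, (2 * (q i * a i e ^ 2) + 2 * (q i * (R *ᵥ a i) e ^ 2)) := by
        refine sum_le_sum fun i _ => ?_
        show q i * (a i e + (R *ᵥ a i) e) ^ 2 ≤ _
        have := mul_nonneg (hq0 i) (sq_nonneg (a i e - (R *ᵥ a i) e))
        nlinarith
      rw [sum_add_distrib, ← mul_sum, ← mul_sum] at h3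
      have h4 : 0 ≤ B * K ^ 2 := by positivity
      have h5 : 0 ≤ B ^ 2 * K ^ 2 := by positivity
      rw [hθdef]; nlinarith)
    (by positivity)
    (tail_cond hp1.le hθ1 (Nat.cast_nonneg _) (hE.trans (Real.exp_le_exp.2 hθB))) ξ
  refine ⟨y, hy1, hy2, ?_⟩
  simp only [hmain] at hy3
  refine hy3.trans ?_
  have hA : ∀ e, ∑ i ∈ s, q i * |(z i).1 e - a i e| ^ p =
      ∑ j, ∑ ℓ ∈ range Λ, |(R *ᵥ psi K m ℓ (g j)) e| ^ p := by
    intro e
    simp only [hza]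
    simp only [s, sum_product, q, a, mulVec_smul, Pi.smul_apply, smul_eq_mul, hqabs]
  have hG := hgarb R w0 wb B K κ g m Λ (by linarith) hK hm hκ hm1 hw0 hw1
    (fun j => hR2 _ (hg j)) hR3 hwb hwb3 hL2 hσ
  simp only [hA]
  have hS0 : 0 ≤ SS p m := by linarith
  calc _ ≤ ∑ e, (|ξ e| * (ε / 2 * SS p m + C1) + C1 * (T * (w0 e *
          ∑ j, ∑ ℓ ∈ range Λ, |(R *ᵥ psi K m ℓ (g j)) e| ^ p))) := by
        refine sum_le_sum fun e _ => ?_
        rw [← mul_assoc T, ← hw2]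
        have h1 := mul_le_mul_of_nonneg_left (hσ e) (show 0 ≤ |ξ e| * (ε / 2 * SS p m) by positivity)
        nlinarith
    _ = T * (ε / 2 * SS p m + C1) + C1 * (T * ∑ e, w0 e *
          ∑ j, ∑ ℓ ∈ range Λ, |(R *ᵥ psi K m ℓ (g j)) e| ^ p) := by
        rw [sum_add_distrib, ← sum_mul, ← mul_sum, ← mul_sum]
    _ ≤ T * (ε / 2 * SS p m + C1 * (m / κ)) + C1 * (T * (C2 * (m / κ))) := by
        have h1 : 1 ≤ m / κ := by rw [le_div_iff₀ (by linarith)]; nlinarith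
        refine add_le_add (mul_le_mul_of_nonneg_left ?_ hT0)
          (mul_le_mul_of_nonneg_left (mul_le_mul_of_nonneg_left hG hT0) (by linarith))
        nlinarith
    _ = T * (ε / 2 * SS p m + ε / 2 * m) := by
        rw [hκdef]; field_simp; ring
    _ ≤ ε * SS p m * T := by
        have h1 := mul_le_mul_of_nonneg_left hS.1 (show 0 ≤ T * (ε / 2) by positivity)
        nlinarith

end Crest.Agent.R232
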