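import Mathlib

set_option autoImplicit false
open Finset

namespace Crest.Agent.R232

lemma mul_log_ge {f F : ℝ} (hf : 0 ≤ f) (hF : 0 < F) :
    2 * f - 2 * (√f * √F) ≤ f * Real.log f - f * Real.log F := by
  rcases eq_or_lt_of_le hf with rfl | hf
  · simp
  · have ha : 0 < √f := Real.sqrt_pos.2 hf
    have hb : 0 < √F := Real.sqrt_pos.2 hF
    have h1 := Real.log_le_sub_one_of_pos (show 0 < √F / √f by positivity)
    rw [Real.log_div hb.ne' ha.ne', Real.log_sqrt hF.le, Real.log_sqrt hf.le] at h1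
    have h2 := mul_le_mul_of_nonneg_left h1 hf.le
    have h3 : f * (√F / √f - 1) = √f * √F - f := by
      have : f = √f * √f := (Real.mul_self_sqrt hf.le).symm
      rw [mul_sub, mul_one]; congr 1
      rw [mul_div_assoc', div_eq_iff ha.ne']
      nlinarith
    rw [h3] at h2
    linarith

variable {X : Type} [Fintype X] [DecidableEq X]

omit [DecidableEq X] in
lemma ent_step (q f : X → ℝ) (x : X) (hq : ∀ y, 0 ≤ q y) (hq1 : ∑ y, q y = 1)
    (hx : 1 / 2 ≤ q x) (hf : ∀ y, 0 ≤ f y) :
    ∑ y, q y * (√(f x) - √(f y)) ^ 2 ≤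
      6 * (∑ y, q y * (f y * Real.log (f y)) -
        (∑ y, q y * f y) * Real.log (∑ y, q y * f y)) := by
  set F := ∑ y, q y * f y with hF
  have hF0 : 0 ≤ F := sum_nonneg fun y _ => mul_nonneg (hq y) (hf y)
  have h1 : ∀ y, q y * (2 * f y - 2 * (√(f y) * √F)) ≤
      q y * (f y * Real.log (f y)) - q y * f y * Real.log F := by
    intro y
    rcases eq_or_lt_of_le hF0 with h0 | h0
    · have h2 : q y * f y = 0 :=
        (sum_eq_zero_iff_of_nonneg (fun y _ => mul_nonneg (hq y) (hf y))).1 h0.symm y (mem_univ _)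
      have h3 : q y * (f y * Real.log (f y)) = 0 := by rw [← mul_assoc, h2, zero_mul]
      rw [← h0, h3, h2]
      simp only [Real.sqrt_zero, mul_zero, sub_zero, zero_mul]
      linarith
    · have := mul_le_mul_of_nonneg_left (mul_log_ge (hf y) h0) (hq y)
      linarith
  have h2 : ∑ y, q y * (√(f y) - √F) ^ 2 = ∑ y, q y * (2 * f y - 2 * (√(f y) * √F)) := by
    have e1 : ∀ y, q y * (√(f y) - √F) ^ 2 =
        q y * (2 * f y - 2 * (√(f y) * √F)) + (q y * F - q y * f y) := by
      intro y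
      have a1 := Real.sq_sqrt (hf y)
      have a2 := Real.sq_sqrt hF0
      have : (√(f y) - √F) ^ 2 = f y - 2 * (√(f y) * √F) + F := by nlinarith
      rw [this]; ring
    simp only [e1, sum_add_distrib, sum_sub_distrib, ← sum_mul, hq1, ← hF]
    ring
  have h3 : ∑ y, q y * (√(f y) - √F) ^ 2 ≤
      ∑ y, q y * (f y * Real.log (f y)) - F * Real.log F := by
    rw [h2, hF, sum_mul, ← sum_sub_distrib]
    exact sum_le_sum fun y _ => h1 y
  set D := ∑ y, q y * (√(f y) - √F) ^ 2 with hD
  have h4 : q x * (√(f x) - √F) ^ 2 ≤ D :=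
    single_le_sum (f := fun y => q y * (√(f y) - √F) ^ 2)
      (fun y _ => mul_nonneg (hq y) (sq_nonneg _)) (mem_univ x)
  have h5 : (√(f x) - √F) ^ 2 ≤ 2 * D := by nlinarith [sq_nonneg (√(f x) - √F)]
  have h6 : ∑ y, q y * (√(f x) - √(f y)) ^ 2 ≤
      ∑ y, (q y * (2 * (√(f x) - √F) ^ 2) + 2 * (q y * (√(f y) - √F) ^ 2)) := by
    refine sum_le_sum fun y _ => ?_
    have : (√(f x) - √(f y)) ^ 2 ≤ 2 * (√(f x) - √F) ^ 2 + 2 * (√(f y) - √F) ^ 2 := by
      nlinarith [sq_nonneg (√(f x) + √(f y) - 2 * √F)]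
    have := mul_le_mul_of_nonneg_left this (hq y)
    linarith
  rw [sum_add_distrib, ← sum_mul, ← mul_sum, hq1, ← hD] at h6
  linarith

/-- a lazy reversible Markov kernel -/
structure RevKernel (m : X → ℝ) (Q : Matrix X X ℝ) : Prop where
  mpos : ∀ x, 0 < m x
  nonneg : ∀ x y, 0 ≤ Q x y
  rowsum : ∀ x, ∑ y, Q x y = 1
  lazy : ∀ x, 1 / 2 ≤ Q x x
  rev : ∀ x y, m x * Q x y = m y * Q y x

/-- the heat kernel -/
noncomputable def hk (m : X → ℝ) (Q : Matrix X X ℝ) (k : ℕ) (x z : X) : ℝ := (Q ^ k) x z / m z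

namespace RevKernel
variable {m : X → ℝ} {Q : Matrix X X ℝ}

lemma pow_nonneg' (h : RevKernel m Q) (k : ℕ) : ∀ x y, 0 ≤ (Q ^ k) x y := by
  induction k with
  | zero => intro x y; simp only [pow_zero, Matrix.one_apply]; split_ifs <;> norm_num
  | succ k ih =>
    intro x y
    rw [pow_succ, Matrix.mul_apply]
    exact sum_nonneg fun w _ => mul_nonneg (ih _ _) (h.nonneg _ _)

lemma pow_rowsum (h : RevKernel m Q) (k : ℕ) : ∀ x, ∑ y, (Q ^ k) x y = 1 := by
  induction k with
  | zero => intro x; simp [Matrix.one_apply]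
  | succ k ih =>
    intro x
    simp only [pow_succ, Matrix.mul_apply]
    rw [sum_comm]
    simp only [← mul_sum, h.rowsum, mul_one, ih]

lemma pow_rev (h : RevKernel m Q) (k : ℕ) : ∀ x y, m x * (Q ^ k) x y = m y * (Q ^ k) y x := by
  induction k with
  | zero =>
    intro x y; simp only [pow_zero, Matrix.one_apply]
    by_cases hxy : x = y
    · subst hxy; rfl
    · simp [hxy, Ne.symm hxy]
  | succ k ih =>
    intro x y
    conv_lhs => rw [pow_succ']
    conv_rhs => rw [pow_succ]
    simp only [Matrix.mul_apply, mul_sum]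
    refine sum_congr rfl fun w _ => ?_
    have h1 := h.rev x w
    have h2 := ih w y
    calc m x * (Q x w * (Q ^ k) w y) = (m x * Q x w) * (Q ^ k) w y := by ring
      _ = Q w x * (m w * (Q ^ k) w y) := by rw [h1]; ring
      _ = m y * ((Q ^ k) y w * Q w x) := by rw [h2]; ring

lemma hk_nonneg (h : RevKernel m Q) (k : ℕ) (x z : X) : 0 ≤ hk m Q k x z :=
  div_nonneg (h.pow_nonneg' k x z) (h.mpos z).le

lemma hk_symm (h : RevKernel m Q) (k : ℕ) (x z : X) : hk m Q k x z = hk m Q k z x := by
  unfold hk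
  rw [div_eq_div_iff (h.mpos z).ne' (h.mpos x).ne']
  have := h.pow_rev k x z
  linarith

lemma hk_succ (k : ℕ) (x z : X) : hk m Q (k + 1) x z = ∑ y, Q x y * hk m Q k y z := by
  unfold hk
  rw [pow_succ', Matrix.mul_apply, sum_div]
  exact sum_congr rfl fun y _ => by ring

lemma mul_hk (h : RevKernel m Q) (k : ℕ) (x z : X) : m z * hk m Q k x z = (Q ^ k) x z := by
  unfold hk
  have := (h.mpos z).ne'
  field_simp

lemma hk_mass (h : RevKernel m Q) (k : ℕ) (z : X) : ∑ x, m x * hk m Q k x z = 1 := by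
  rw [← h.pow_rowsum k z]
  refine sum_congr rfl fun x _ => ?_
  rw [h.hk_symm k x z, h.mul_hk]

lemma hk_add (h : RevKernel m Q) (i j : ℕ) (x y : X) :
    hk m Q (i + j) x y = ∑ z, m z * (hk m Q i x z * hk m Q j y z) := by
  conv_lhs => unfold hk
  rw [pow_add, Matrix.mul_apply, sum_div]
  refine sum_congr rfl fun z _ => ?_
  rw [← mul_assoc, h.mul_hk, h.hk_symm j y z]
  unfold hk
  ring

omit [DecidableEq X] in
lemma ent_drop (h : RevKernel m Q) (f : X → ℝ) (hf : ∀ y, 0 ≤ f y) :
    ∑ x, ∑ y, m x * Q x y * (√(f x) - √(f y)) ^ 2 ≤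
      6 * (∑ x, m x * (f x * Real.log (f x)) -
        ∑ x, m x * ((∑ y, Q x y * f y) * Real.log (∑ y, Q x y * f y))) := by
  have h1 : ∑ x, m x * (f x * Real.log (f x)) =
      ∑ x, m x * ∑ y, Q x y * (f y * Real.log (f y)) := by
    simp only [mul_sum]
    rw [sum_comm]
    refine sum_congr rfl fun y _ => ?_
    have : ∀ x, m x * (Q x y * (f y * Real.log (f y))) =
        Q y x * (m y * (f y * Real.log (f y))) := by
      intro x
      have := h.rev x y
      rw [← mul_assoc, this]; ring
    simp only [this, ← sum_mul, h.rowsum, one_mul]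
  rw [h1, ← sum_sub_distrib, mul_sum]
  refine sum_le_sum fun x _ => ?_
  have h2 := mul_le_mul_of_nonneg_left
    (ent_step (Q x) f x (h.nonneg x) (h.rowsum x) (h.lazy x) hf) (h.mpos x).le
  rw [mul_sum] at h2
  simp only [mul_assoc] at h2 ⊢
  linarith

lemma ent_sum (h : RevKernel m Q) (z : X) (N : ℕ) :
    ∑ k ∈ range N, ∑ x, ∑ y, m x * Q x y * (√(hk m Q k x z) - √(hk m Q k y z)) ^ 2 ≤
      6 * Real.log ((∑ x, m x) / m z) := by
  let H : ℕ → ℝ := fun k => ∑ x, m x * (hk m Q k x z * Real.log (hk m Q k x z))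
  have h1 : ∀ N, ∑ k ∈ range N, ∑ x, ∑ y, m x * Q x y * (√(hk m Q k x z) - √(hk m Q k y z)) ^ 2 ≤
      6 * (H 0 - H N) := by
    intro N
    induction N with
    | zero => simp
    | succ N ih =>
      rw [sum_range_succ]
      have := h.ent_drop (fun x => hk m Q N x z) (fun x => h.hk_nonneg N x z)
      simp only [← hk_succ] at this
      simp only [H] at ih ⊢
      linarith
  have hM : 0 < ∑ x, m x := sum_pos (fun x _ => h.mpos x) ⟨z, mem_univ _⟩
  have hz := h.mpos z
  have h0 : H 0 = - Real.log (m z) := by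
    simp only [H, hk, pow_zero, Matrix.one_apply]
    rw [sum_eq_single z]
    · simp only [if_true, one_div, Real.log_inv]; field_simp
    · intro x _ hx; simp [hx]
    · simp
  have hN : - Real.log (∑ x, m x) ≤ H N := by
    have h2 : ∀ x, m x * hk m Q N x z - m x / (∑ x, m x) -
        m x * hk m Q N x z * Real.log (∑ x, m x) ≤
        m x * (hk m Q N x z * Real.log (hk m Q N x z)) := by
      intro x
      have hx := h.mpos x
      rcases eq_or_lt_of_le (h.hk_nonneg N x z) with h3 | h3
      · rw [← h3]; simp; positivity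
      · set f := hk m Q N x z
        set M := ∑ x, m x
        have h4 := Real.log_le_sub_one_of_pos (show 0 < 1 / (f * M) by positivity)
        rw [one_div, Real.log_inv, Real.log_mul h3.ne' hM.ne'] at h4
        have h5 := mul_le_mul_of_nonneg_left h4 (show 0 ≤ m x * f by positivity)
        have h6 : m x * f * ((f * M)⁻¹ - 1) = m x / M - m x * f := by field_simp
        rw [h6] at h5
        linarith
    have h3 := sum_le_sum fun x (_ : x ∈ univ) => h2 x
    rw [sum_sub_distrib, sum_sub_distrib, ← sum_mul, ← sum_div, h.hk_mass, div_self hM.ne'] at h3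
    simpa using h3
  rw [Real.log_div hM.ne' hz.ne']
  have := h1 N
  linarith

omit [DecidableEq X] in
lemma sum_log_le (h : RevKernel m Q) :
    ∑ z, m z * Real.log ((∑ x, m x) / m z) ≤ (∑ x, m x) * Real.log (Fintype.card X) := by
  rcases isEmpty_or_nonempty X with hX | hX
  · simp
  have hM : 0 < ∑ x, m x := sum_pos (fun x _ => h.mpos x) univ_nonempty
  have hc : (0:ℝ) < Fintype.card X := by exact_mod_cast Fintype.card_pos
  set M := ∑ x, m x with hMdef
  have h1 : ∀ z, m z * Real.log (M / m z) ≤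
      m z * Real.log (Fintype.card X) + (M / Fintype.card X - m z) := by
    intro z
    have hz := h.mpos z
    have h4 := Real.log_le_sub_one_of_pos (show 0 < M / m z / Fintype.card X by positivity)
    rw [Real.log_div (by positivity) hc.ne'] at h4
    have h5 := mul_le_mul_of_nonneg_left h4 hz.le
    have h6 : m z * (M / m z / Fintype.card X - 1) = M / Fintype.card X - m z := by field_simp
    rw [h6] at h5
    linarith
  have h3 := sum_le_sum fun x (_ : x ∈ univ) => h1 x
  rw [sum_add_distrib, sum_sub_distrib, ← sum_mul, ← hMdef] at h3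
  simp only [sum_const, card_univ, nsmul_eq_mul] at h3
  have h4 : (Fintype.card X : ℝ) * (M / Fintype.card X) = M := by field_simp
  linarith

end RevKernel

end Crest.Agent.R232
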