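import Crest.Agent.R232.Basic

set_option autoImplicit false
open Finset

namespace Crest.Agent.R232

/-- expectation of `Φ` at a sum of independent symmetric sparse jumps: the jump `i` equals
`± u i` with probability `q i / 2` each and `0` otherwise. -/
noncomputable def Ex {ι V : Type*} [AddCommGroup V] (q : ι → ℝ) (u : ι → V) :
    List ι → (V → ℝ) → ℝ
  | [], Φ => Φ 0
  | i :: l, Φ => Ex q u l (fun s => (1 - q i) * Φ s + q i / 2 * (Φ (s + u i) + Φ (s - u i)))

section
variable {ι V : Type*} [AddCommGroup V] {q : ι → ℝ} {u : ι → V}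

lemma Ex_mono (hq0 : ∀ i, 0 ≤ q i) (hq1 : ∀ i, q i ≤ 1) (l : List ι) :
    ∀ {Φ Ψ : V → ℝ}, (∀ s, Φ s ≤ Ψ s) → Ex q u l Φ ≤ Ex q u l Ψ := by
  induction l with
  | nil => intro Φ Ψ h; exact h 0
  | cons i l ih =>
    intro Φ Ψ h
    apply ih
    intro s
    have h1 := mul_le_mul_of_nonneg_left (h s) (sub_nonneg.2 (hq1 i))
    have h2 := mul_le_mul_of_nonneg_left (add_le_add (h (s + u i)) (h (s - u i)))
      (show 0 ≤ q i / 2 by linarith [hq0 i])
    linarith

lemma Ex_lin (l : List ι) : ∀ (a b c : ℝ) (Φ Ψ : V → ℝ),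
    Ex q u l (fun s => a * Φ s + b * Ψ s + c) = a * Ex q u l Φ + b * Ex q u l Ψ + c := by
  induction l with
  | nil => intro a b c Φ Ψ; rfl
  | cons i l ih =>
    intro a b c Φ Ψ
    simp only [Ex]
    rw [← ih]
    congr 1
    funext s
    ring

lemma Ex_const (l : List ι) (c : ℝ) : Ex q u l (fun _ => c) = c := by
  have := Ex_lin (q := q) (u := u) l 0 0 c (fun _ => 0) (fun _ => 0)
  simpa using this

lemma Ex_add (l : List ι) (Φ Ψ : V → ℝ) :
    Ex q u l (fun s => Φ s + Ψ s) = Ex q u l Φ + Ex q u l Ψ := by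
  have := Ex_lin (q := q) (u := u) l 1 1 0 Φ Ψ
  simpa using this

lemma Ex_mul (l : List ι) (a : ℝ) (Φ : V → ℝ) :
    Ex q u l (fun s => a * Φ s) = a * Ex q u l Φ := by
  have := Ex_lin (q := q) (u := u) l a 0 0 Φ Φ
  simpa using this

lemma Ex_sum {κ : Type*} (l : List ι) (t : Finset κ) (Φ : κ → V → ℝ) :
    Ex q u l (fun s => ∑ k ∈ t, Φ k s) = ∑ k ∈ t, Ex q u l (Φ k) := by
  classical
  induction t using Finset.induction_on with
  | empty => simpa using Ex_const l 0
  | insert k t hk ih =>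
    simp only [sum_insert hk]
    rw [Ex_add, ih]

lemma Ex_exists_le (hq0 : ∀ i, 0 ≤ q i) (hq1 : ∀ i, q i ≤ 1) (l : List ι) :
    ∀ (Φ : V → ℝ), ∃ s, Φ s ≤ Ex q u l Φ := by
  induction l with
  | nil => intro Φ; exact ⟨0, le_rfl⟩
  | cons i l ih =>
    intro Φ
    obtain ⟨s, hs⟩ := ih (fun s => (1 - q i) * Φ s + q i / 2 * (Φ (s + u i) + Φ (s - u i)))
    by_contra hcon
    push Not at hcon
    have h1 := hcon s
    have h2 := hcon (s + u i)
    have h3 := hcon (s - u i)
    simp only [Ex] at h1 h2 h3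
    set X := Ex q u l (fun s => (1 - q i) * Φ s + q i / 2 * (Φ (s + u i) + Φ (s - u i)))
    have h4 := hq0 i
    have h5 := hq1 i
    rcases eq_or_lt_of_le h4 with h6 | h6
    · rw [← h6] at hs; linarith
    · nlinarith

lemma Ex_map {W : Type*} [AddCommGroup W] (π : V →+ W) (l : List ι) :
    ∀ (Φ : W → ℝ), Ex q u l (fun s => Φ (π s)) = Ex q (fun i => π (u i)) l Φ := by
  induction l with
  | nil => intro Φ; simp [Ex]
  | cons i l ih =>
    intro Φ
    simp only [Ex]
    rw [← ih]
    simp only [map_add, map_sub]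

end

section real
variable {ι : Type*} {q : ι → ℝ} {y : ι → ℝ}

lemma list_sum_nonneg (l : List ι) {f : ι → ℝ} (hf : ∀ i, 0 ≤ f i) : 0 ≤ (l.map f).sum := by
  induction l with
  | nil => simp
  | cons i l ih => simp only [List.map_cons, List.sum_cons]; linarith [hf i]

lemma list_sum_le (l : List ι) {f g : ι → ℝ} (hf : ∀ i, f i ≤ g i) :
    (l.map f).sum ≤ (l.map g).sum := by
  induction l with
  | nil => simp
  | cons i l ih => simp only [List.map_cons, List.sum_cons]; linarith [hf i]

lemma list_sum_mul (l : List ι) (c : ℝ) (f : ι → ℝ) :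
    (l.map (fun i => c * f i)).sum = c * (l.map f).sum := by
  induction l with
  | nil => simp
  | cons i l ih => simp only [List.map_cons, List.sum_cons]; rw [ih]; ring

open Classical in
/-- probability that the sum is nonzero -/
lemma Ex_ne_zero (hq0 : ∀ i, 0 ≤ q i) (hq1 : ∀ i, q i ≤ 1) (l : List ι) :
    Ex q y l (fun s => if s = 0 then 0 else 1) ≤ (l.map fun i => if y i = 0 then 0 else q i).sum := by
  induction l with
  | nil => simp [Ex]
  | cons i l ih =>
    simp only [Ex, List.map_cons, List.sum_cons]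
    have : Ex q y l (fun s => (1 - q i) * (if s = 0 then 0 else 1) +
        q i / 2 * ((if s + y i = 0 then 0 else 1) + (if s - y i = 0 then 0 else 1))) ≤
        Ex q y l (fun s => 1 * (if s = 0 then 0 else 1) + 0 * 0 + (if y i = 0 then 0 else q i)) := by
      apply Ex_mono hq0 hq1
      intro s
      have h4 := hq0 i
      have h5 := hq1 i
      by_cases hy : y i = 0
      · simp only [hy, add_zero, sub_zero, if_true]; split_ifs <;> linarith
      · simp only [hy, if_false]; split_ifs <;> linarith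
    rw [Ex_lin (Ψ := fun _ => 0)] at this
    linarith

lemma mid_convex {p : ℝ} (hp : 1 ≤ p) (s y : ℝ) : 2 * |s| ^ p ≤ |s + y| ^ p + |s - y| ^ p := by
  have hc := (convexOn_rpow hp).2 (Set.mem_Ici.2 (abs_nonneg (s + y)))
    (Set.mem_Ici.2 (abs_nonneg (s - y))) (show (0:ℝ) ≤ 1 / 2 by norm_num)
    (show (0:ℝ) ≤ 1 / 2 by norm_num) (by norm_num)
  simp only [smul_eq_mul] at hc
  have h1 : |s| ≤ 1 / 2 * |s + y| + 1 / 2 * |s - y| := by
    have := abs_add_le (s + y) (s - y)
    rw [show s + y + (s - y) = 2 * s by ring, abs_mul] at this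
    norm_num at this
    linarith
  have h2 := Real.rpow_le_rpow (abs_nonneg _) h1 (show 0 ≤ p by linarith)
  linarith

open Classical in
/-- lower moment bound for sparse sums -/
lemma Ex_sparse_lower {p : ℝ} (hp : 1 ≤ p) (hq0 : ∀ i, 0 ≤ q i) (hq1 : ∀ i, q i ≤ 1) (Λ : ℝ)
    (l : List ι) (hΛ : (l.map fun i => if y i = 0 then 0 else q i).sum ≤ Λ) :
    (1 - Λ) * (l.map fun i => q i * |y i| ^ p).sum ≤ Ex q y l (fun s => |s| ^ p) := by
  induction l with
  | nil => simp [Ex, Real.zero_rpow (show p ≠ 0 by linarith)]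
  | cons i l ih =>
    simp only [List.map_cons, List.sum_cons] at hΛ
    have hnn : 0 ≤ (if y i = 0 then 0 else q i) := by split_ifs; exact le_rfl; exact hq0 i
    have hΛ' : (l.map fun i => if y i = 0 then 0 else q i).sum ≤ Λ := by linarith
    have ih := ih hΛ'
    have hz := Ex_ne_zero (y := y) hq0 hq1 l
    simp only [Ex, List.map_cons, List.sum_cons]
    have hA : 0 ≤ q i * |y i| ^ p := mul_nonneg (hq0 i) (by positivity)
    have : Ex q y l (fun s => 1 * |s| ^ p + (-(q i * |y i| ^ p)) * (if s = 0 then 0 else 1) +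
        q i * |y i| ^ p) ≤
        Ex q y l (fun s => (1 - q i) * |s| ^ p + q i / 2 * (|s + y i| ^ p + |s - y i| ^ p)) := by
      apply Ex_mono hq0 hq1
      intro s
      have h4 := hq0 i
      by_cases hs : s = 0
      · subst hs
        simp [Real.zero_rpow (show p ≠ 0 by linarith)]
        linarith
      · simp only [hs, if_false]
        have := mid_convex hp s (y i)
        nlinarith
    rw [Ex_lin] at this
    nlinarith

open Classical in
/-- upper moment bound for sparse sums -/
lemma Ex_sparse_upper_aux {p : ℝ} (hp : 1 ≤ p) (hq0 : ∀ i, 0 ≤ q i) (hq1 : ∀ i, q i ≤ 1) (Λ : ℝ)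
    (l : List ι) (hΛ : (l.map fun i => if y i = 0 then 0 else q i).sum ≤ Λ) :
    Ex q y l (fun s => |s| ^ p) ≤
      Real.exp (2 ^ p * (l.map fun i => if y i = 0 then 0 else q i).sum) * (1 + 2 ^ p * Λ) *
        (l.map fun i => q i * |y i| ^ p).sum := by
  induction l with
  | nil => simp [Ex, Real.zero_rpow (show p ≠ 0 by linarith)]
  | cons i l ih =>
    simp only [List.map_cons, List.sum_cons] at hΛ
    have hnn : 0 ≤ (if y i = 0 then 0 else q i) := by split_ifs; exact le_rfl; exact hq0 i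
    have hΛ' : (l.map fun i => if y i = 0 then 0 else q i).sum ≤ Λ := by linarith
    have ih := ih hΛ'
    have hz := Ex_ne_zero (y := y) hq0 hq1 l
    simp only [Ex, List.map_cons, List.sum_cons]
    have hA : 0 ≤ q i * |y i| ^ p := mul_nonneg (hq0 i) (by positivity)
    have hc : (0:ℝ) < 2 ^ p := by positivity
    have hc1 : (1:ℝ) ≤ 2 ^ p := Real.one_le_rpow (by norm_num) (by linarith)
    have : Ex q y l (fun s => (1 - q i) * |s| ^ p + q i / 2 * (|s + y i| ^ p + |s - y i| ^ p)) ≤
        Ex q y l (fun s => (1 + 2 ^ p * (if y i = 0 then 0 else q i)) * |s| ^ p +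
          (2 ^ p * (q i * |y i| ^ p)) * (if s = 0 then 0 else 1) + q i * |y i| ^ p) := by
      apply Ex_mono hq0 hq1
      intro s
      have h4 := hq0 i
      by_cases hs : s = 0
      · subst hs
        simp [Real.zero_rpow (show p ≠ 0 by linarith)]
        linarith
      · simp only [hs, if_false]
        by_cases hy : y i = 0
        · simp [hy, Real.zero_rpow (show p ≠ 0 by linarith)]
          linarith
        · simp only [hy, if_false]
          have h1 := abs_add_rpow_le (show 0 ≤ p by linarith) s (y i)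
          have h2 := abs_add_rpow_le (show 0 ≤ p by linarith) s (- y i)
          rw [abs_neg, ← sub_eq_add_neg] at h2
          have h3 : 0 ≤ |s| ^ p := by positivity
          have h5 := mul_le_mul_of_nonneg_left (add_le_add h1 h2) (show 0 ≤ q i / 2 by linarith)
          nlinarith [mul_nonneg h4 h3]
    rw [Ex_lin] at this
    set L := (l.map fun i => if y i = 0 then 0 else q i).sum
    set A := (l.map fun i => q i * |y i| ^ p).sum
    set r := (if y i = 0 then 0 else q i)
    have hL : 0 ≤ L := list_sum_nonneg l fun i => by split_ifs; exact le_rfl; exact hq0 i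
    have hA' : 0 ≤ A := list_sum_nonneg l fun i => mul_nonneg (hq0 i) (by positivity)
    have hΛ0 : 0 ≤ Λ := hL.trans hΛ'
    have e1 : 1 + 2 ^ p * r ≤ Real.exp (2 ^ p * r) := by
      have := Real.add_one_le_exp (2 ^ p * r); linarith
    have e2 : 1 ≤ Real.exp (2 ^ p * (r + L)) := Real.one_le_exp (by positivity)
    have e3 : Real.exp (2 ^ p * (r + L)) = Real.exp (2 ^ p * r) * Real.exp (2 ^ p * L) := by
      rw [← Real.exp_add]; congr 1; ring
    have e4 : (1 + 2 ^ p * r) * Ex q y l (fun s => |s| ^ p) ≤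
        Real.exp (2 ^ p * r) * (Real.exp (2 ^ p * L) * (1 + 2 ^ p * Λ) * A) :=
      le_trans (mul_le_mul_of_nonneg_left ih (by positivity))
        (mul_le_mul_of_nonneg_right e1 (by positivity))
    have e5 : 2 ^ p * (q i * |y i| ^ p) * Ex q y l (fun s => if s = 0 then 0 else 1) ≤
        2 ^ p * (q i * |y i| ^ p) * Λ :=
      mul_le_mul_of_nonneg_left (hz.trans hΛ') (by positivity)
    have e6 : (1 + 2 ^ p * Λ) * (q i * |y i| ^ p) ≤
        Real.exp (2 ^ p * (r + L)) * ((1 + 2 ^ p * Λ) * (q i * |y i| ^ p)) :=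
      le_mul_of_one_le_left (by positivity) e2
    rw [e3] at e6 ⊢
    nlinarith

open Classical in
lemma Ex_sparse_upper {p : ℝ} (hp : 1 ≤ p) (hq0 : ∀ i, 0 ≤ q i) (hq1 : ∀ i, q i ≤ 1) (η : ℝ)
    (hη : η ≤ 1) (l : List ι)
    (hΛ : (l.map fun i => if y i = 0 then 0 else q i).sum ≤ η / (4 * 2 ^ p)) :
    Ex q y l (fun s => |s| ^ p) ≤ (1 + η) * (l.map fun i => q i * |y i| ^ p).sum := by
  have h := Ex_sparse_upper_aux hp hq0 hq1 _ l hΛ
  set L := (l.map fun i => if y i = 0 then 0 else q i).sum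
  set A := (l.map fun i => q i * |y i| ^ p).sum
  have hL : 0 ≤ L := list_sum_nonneg l fun i => by split_ifs; exact le_rfl; exact hq0 i
  have hA' : 0 ≤ A := list_sum_nonneg l fun i => mul_nonneg (hq0 i) (by positivity)
  have hc : (0:ℝ) < 2 ^ p := by positivity
  have e0 : 2 ^ p * (η / (4 * 2 ^ p)) = η / 4 := by field_simp
  have e1 : 2 ^ p * L ≤ η / 4 := by rw [← e0]; exact mul_le_mul_of_nonneg_left hΛ hc.le
  have hη0 : 0 ≤ η := by nlinarith
  have e2 : Real.exp (2 ^ p * L) ≤ 1 + η / 2 := by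
    have h1 : Real.exp (2 ^ p * L) ≤ Real.exp (η / 4) := Real.exp_le_exp.2 e1
    have h2 := Real.abs_exp_sub_one_le (x := η / 4) (by rw [abs_of_nonneg (by linarith)]; linarith)
    rw [abs_of_nonneg (show 0 ≤ η / 4 by linarith)] at h2
    have := (abs_le.1 h2).2
    linarith
  rw [e0] at h
  refine h.trans (mul_le_mul_of_nonneg_right ?_ hA')
  nlinarith

/-- exponential moment -/
lemma Ex_cosh_aux (hq0 : ∀ i, 0 ≤ q i) (hq1 : ∀ i, q i ≤ 1) {θ : ℝ} (hθ : 0 < θ)
    (hy : ∀ i, |y i| ≤ θ) (l : List ι) :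
    Ex q y l (fun s => Real.cosh (s / θ)) ≤ Real.exp ((l.map fun i => q i * y i ^ 2).sum / θ ^ 2) := by
  induction l with
  | nil => simp [Ex]
  | cons i l ih =>
    simp only [Ex, List.map_cons, List.sum_cons]
    have h4 := hq0 i
    have : Ex q y l (fun s => (1 - q i) * Real.cosh (s / θ) +
        q i / 2 * (Real.cosh ((s + y i) / θ) + Real.cosh ((s - y i) / θ))) ≤
        Ex q y l (fun s => Real.exp (q i * y i ^ 2 / θ ^ 2) * Real.cosh (s / θ)) := by
      apply Ex_mono hq0 hq1
      intro s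
      rw [add_div, sub_div, Real.cosh_add, Real.cosh_sub]
      have h1 := cosh_le_one_add_sq (x := y i / θ)
        (by rw [abs_div, abs_of_pos hθ, div_le_one hθ]; exact hy i)
      have h2 := Real.add_one_le_exp (q i * y i ^ 2 / θ ^ 2)
      have h3 := Real.cosh_pos (s / θ)
      have h5 : q i * y i ^ 2 / θ ^ 2 = q i * (y i / θ) ^ 2 := by rw [div_pow]; ring
      rw [h5] at h2 ⊢
      have h6 := mul_le_mul_of_nonneg_left h1 (mul_nonneg h4 h3.le)
      nlinarith
    rw [Ex_mul] at this
    rw [add_div, Real.exp_add]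
    exact this.trans (mul_le_mul_of_nonneg_left ih (Real.exp_pos _).le)

lemma Ex_cosh (hq0 : ∀ i, 0 ≤ q i) (hq1 : ∀ i, q i ≤ 1) {θ : ℝ} (hθ : 0 < θ)
    (hy : ∀ i, |y i| ≤ θ) (l : List ι) (hV : (l.map fun i => q i * y i ^ 2).sum ≤ θ ^ 2) :
    Ex q y l (fun s => Real.cosh (s / θ)) ≤ 3 := by
  refine (Ex_cosh_aux hq0 hq1 hθ hy l).trans ?_
  have h1 : (l.map fun i => q i * y i ^ 2).sum / θ ^ 2 ≤ 1 := by
    rwa [div_le_one (by positivity)]
  have h2 := Real.exp_le_exp.2 h1
  have h3 := Real.exp_one_lt_d9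
  linarith

open Classical in
/-- a Rosenthal-type bound -/
lemma Ex_rosenthal {p : ℝ} (hp : 1 ≤ p) : ∃ C : ℝ, 1 ≤ C ∧ ∀ {ι : Type} (q y : ι → ℝ),
    (∀ i, 0 ≤ q i) → (∀ i, q i ≤ 1) → ∀ (l : List ι),
    (p ≤ 2 ∨ (l.map fun i => q i * y i ^ 2).sum ≤ 1) →
    Ex q y l (fun s => |s| ^ p) ≤ C * ((l.map fun i => q i * |y i| ^ p).sum + 1) := by
  have hp0 : 0 < p := by linarith
  have hc1 : (1:ℝ) ≤ 2 ^ p := Real.one_le_rpow (by norm_num) (by linarith)
  have hpp : (1:ℝ) ≤ p ^ p := Real.one_le_rpow hp (by linarith)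
  refine ⟨2 ^ p * (p ^ p * 6 * (4 * 2 ^ p) + 2), by
    have : 0 ≤ p ^ p * 6 * (4 * 2 ^ p) := by positivity
    nlinarith, ?_⟩
  intro ι q y hq0 hq1 l hV
  set A := (l.map fun i => q i * |y i| ^ p).sum with hAdef
  have hA : 0 ≤ A := list_sum_nonneg l fun i => mul_nonneg (hq0 i) (by positivity)
  set Θ : ℝ := 4 * 2 ^ p * (A + 1) with hΘ
  have hΘ1 : 1 ≤ Θ := by nlinarith
  set θ : ℝ := Θ ^ (1 / p) with hθdef
  have hθ1 : 1 ≤ θ := Real.one_le_rpow hΘ1 (by positivity)
  have hθ : 0 < θ := by linarith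
  have hθp : θ ^ p = Θ := by
    rw [hθdef, ← Real.rpow_mul (by linarith), one_div_mul_cancel hp0.ne', Real.rpow_one]
  let a : ι → ℝ := fun i => if |y i| ≤ θ then y i else 0
  let b : ι → ℝ := fun i => if |y i| ≤ θ then 0 else y i
  have hab : ∀ i, a i + b i = y i := fun i => by simp only [a, b]; split_ifs <;> simp
  let π : ℝ × ℝ →+ ℝ := AddMonoidHom.fst ℝ ℝ + AddMonoidHom.snd ℝ ℝ
  have e1 : Ex q y l (fun s => |s| ^ p) =
      Ex q (fun i => (a i, b i)) l (fun s => |s.1 + s.2| ^ p) := by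
    have := Ex_map (q := q) (u := fun i => (a i, b i)) π l (fun s => |s| ^ p)
    simp only [π, AddMonoidHom.add_apply, AddMonoidHom.coe_fst, AddMonoidHom.coe_snd, hab] at this
    exact this.symm
  have e2 : Ex q (fun i => (a i, b i)) l (fun s => |s.1 + s.2| ^ p) ≤
      Ex q (fun i => (a i, b i)) l (fun s => (2 ^ p * (θ ^ p * p ^ p * 2)) * Real.cosh (s.1 / θ) +
        2 ^ p * |s.2| ^ p + 0) := by
    apply Ex_mono hq0 hq1
    intro s
    have h1 := abs_add_rpow_le hp0.le s.1 s.2
    have h2 : |s.1| ^ p ≤ θ ^ p * p ^ p * 2 * Real.cosh (s.1 / θ) := by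
      have h3 := rpow_le_exp hp0 (abs_nonneg (s.1 / θ))
      have h4 := exp_abs_le_cosh (s.1 / θ)
      rw [abs_div, abs_of_pos hθ, Real.div_rpow (abs_nonneg _) hθ.le,
        div_le_iff₀ (by positivity)] at h3
      rw [abs_div, abs_of_pos hθ] at h4
      have h5 := mul_le_mul_of_nonneg_left h4 (show 0 ≤ p ^ p * θ ^ p by positivity)
      nlinarith
    nlinarith
  rw [Ex_lin] at e2
  have e3 : Ex q (fun i => (a i, b i)) l (fun s => Real.cosh (s.1 / θ)) =
      Ex q a l (fun s => Real.cosh (s / θ)) :=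
    Ex_map (q := q) (u := fun i => (a i, b i)) (AddMonoidHom.fst ℝ ℝ) l (fun s => Real.cosh (s / θ))
  have e4 : Ex q (fun i => (a i, b i)) l (fun s => |s.2| ^ p) = Ex q b l (fun s => |s| ^ p) :=
    Ex_map (q := q) (u := fun i => (a i, b i)) (AddMonoidHom.snd ℝ ℝ) l (fun s => |s| ^ p)
  have e5 : Ex q a l (fun s => Real.cosh (s / θ)) ≤ 3 := by
    apply Ex_cosh hq0 hq1 hθ
    · intro i; simp only [a]; split_ifs with h
      · exact h
      · simp [hθ.le]
    · rcases hV with hV | hV
      · have h1 : (l.map fun i => q i * a i ^ 2).sum ≤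
            (l.map fun i => θ ^ (2 - p) * (q i * |y i| ^ p)).sum := by
          apply list_sum_le
          intro i
          have h4 := hq0 i
          simp only [a]; split_ifs with h
          · have h2 : y i ^ 2 ≤ θ ^ (2 - p) * |y i| ^ p := by
              have h3 : |y i| ^ (2 - p) ≤ θ ^ (2 - p) :=
                Real.rpow_le_rpow (abs_nonneg _) h (by linarith)
              have h5 : y i ^ 2 = |y i| ^ (2 - p) * |y i| ^ p := by
                rw [← Real.rpow_add' (abs_nonneg _) (by norm_num), ← sq_abs, ← Real.rpow_natCast]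
                congr 1; push_cast; ring
              rw [h5]
              exact mul_le_mul_of_nonneg_right h3 (by positivity)
            nlinarith
          · have : 0 ≤ θ ^ (2 - p) * (q i * |y i| ^ p) := by positivity
            simpa using this
        rw [list_sum_mul] at h1
        have h2 : θ ^ 2 = θ ^ (2 - p) * θ ^ p := by
          rw [← Real.rpow_add hθ, ← Real.rpow_natCast]; congr 1; push_cast; ring
        rw [h2, hθp]
        refine h1.trans (mul_le_mul_of_nonneg_left ?_ (by positivity))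
        rw [← hAdef]; nlinarith
      · have h1 : (l.map fun i => q i * a i ^ 2).sum ≤ (l.map fun i => q i * y i ^ 2).sum := by
          apply list_sum_le
          intro i
          have h4 := hq0 i
          simp only [a]; split_ifs with h
          · exact le_rfl
          · have : 0 ≤ q i * y i ^ 2 := by positivity
            simpa using this
        nlinarith
  have e6 : Ex q b l (fun s => |s| ^ p) ≤ (1 + 1) * (l.map fun i => q i * |b i| ^ p).sum := by
    apply Ex_sparse_upper hp hq0 hq1 1 le_rfl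
    have h1 : (l.map fun i => if b i = 0 then 0 else q i).sum ≤
        (l.map fun i => Θ⁻¹ * (q i * |y i| ^ p)).sum := by
      apply list_sum_le
      intro i
      have h4 := hq0 i
      by_cases h : |y i| ≤ θ
      · simp only [b, if_pos h, if_true]; positivity
      · have h2 : Θ ≤ |y i| ^ p := by
          rw [← hθp]; exact Real.rpow_le_rpow hθ.le (not_le.1 h).le hp0.le
        have h3 : q i ≤ Θ⁻¹ * (q i * |y i| ^ p) := by
          rw [inv_mul_eq_div, le_div_iff₀ (by linarith)]
          exact mul_le_mul_of_nonneg_left h2 h4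
        split_ifs
        · positivity
        · exact h3
    rw [list_sum_mul, ← hAdef] at h1
    refine h1.trans ?_
    rw [inv_mul_eq_div, div_le_div_iff₀ (by linarith) (by positivity), hΘ]
    nlinarith
  have e7 : (l.map fun i => q i * |b i| ^ p).sum ≤ A := by
    apply list_sum_le
    intro i
    have h4 := hq0 i
    simp only [b]; split_ifs with h
    · have : 0 ≤ q i * |y i| ^ p := by positivity
      simpa [Real.zero_rpow hp0.ne'] using this
    · exact le_rfl
  rw [e1]
  rw [e3, e4, hθp] at e2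
  have e8 : 2 ^ p * (Θ * p ^ p * 2) * Ex q a l (fun s => Real.cosh (s / θ)) ≤
      2 ^ p * (Θ * p ^ p * 2) * 3 := mul_le_mul_of_nonneg_left e5 (by positivity)
  have e9 : 2 ^ p * Ex q b l (fun s => |s| ^ p) ≤ 2 ^ p * (2 * (A + 1)) :=
    mul_le_mul_of_nonneg_left (by linarith) (by positivity)
  rw [hΘ] at e8 e2
  nlinarith

end real

end Crest.Agent.R232
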