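import Crest.Agent.R232.Core

set_option autoImplicit false
open Finset MeasureTheory

namespace Crest.Agent.R232

variable {X : Type} [Fintype X]

theorem discretize {P ε : ℝ} (hP : 0 < P) (hε : 0 < ε) (hε1 : ε ≤ 1) [Nonempty X]
    {α : Type*} [MeasurableSpace α] (μ : Measure α) (f : α → X → ℝ) (r δ : X × X → ℝ)
    (hδ0 : ∀ e, 0 ≤ δ e) (hδ1 : ∀ e, δ e ≤ 1) (hδ : 0 < ∑ e, δ e)
    (hint : ∀ e, Integrable (fun ω => |grad r (f ω) e| ^ P) μ)
    (hval : ∀ e, ∫ ω, |grad r (f ω) e| ^ P ∂μ = δ e) :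
    ∃ (N : ℕ) (F : Fin N → X → ℝ), ∀ e, δ e - ε ≤ ∑ k, |grad r (F k) e| ^ P ∧
      ∑ k, |grad r (F k) e| ^ P ≤ 1 := by
  set N' := ∑ e, δ e with hN'
  let Rs : (X → ℝ) → ℝ := fun s => ∑ e, |grad r s e| ^ P
  have hRs0 : ∀ s, 0 ≤ Rs s := fun s => sum_nonneg fun e _ => by positivity
  have hRsle : ∀ s e, |grad r s e| ^ P ≤ Rs s := fun s e =>
    single_le_sum (f := fun e => |grad r s e| ^ P) (fun e _ => by positivity) (mem_univ e)
  have hRint : ∫ ω, Rs (f ω) ∂μ = N' := by
    simp only [Rs]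
    rw [integral_finsetSum _ fun e _ => hint e]
    simp only [hval, hN']
  have hRi : Integrable (fun ω => Rs (f ω)) μ := integrable_finsetSum _ fun e _ => hint e
  let 𝒜 := {s : X → ℝ // 0 < Rs s}
  have hne : Nonempty 𝒜 := by
    by_contra hcon
    have h1 : ∀ ω, Rs (f ω) = 0 := fun ω => by
      by_contra h
      exact hcon ⟨⟨f ω, lt_of_le_of_ne (hRs0 _) (Ne.symm h)⟩⟩
    simp only [h1, integral_zero] at hRint
    linarith
  let a : 𝒜 → X × X → ℝ := fun s e => N' * |grad r s.1 e| ^ P / Rs s.1 - δ e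
  set κ := ε / 6 with hκ
  have hκ0 : 0 < κ := by positivity
  set M := N' + 2 with hM
  obtain ⟨d, hd⟩ := exists_nat_ge (M ^ 2 * Real.log (2 * Fintype.card (X × X)) / κ ^ 2 + 1)
  have hlog : 0 ≤ Real.log (2 * Fintype.card (X × X)) := by
    apply Real.log_nonneg
    have : (1:ℝ) ≤ Fintype.card (X × X) := by exact_mod_cast Fintype.card_pos
    linarith
  have hd0 : (0:ℝ) < d := by
    have : 0 ≤ M ^ 2 * Real.log (2 * Fintype.card (X × X)) / κ ^ 2 := by positivity
    linarith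
  obtain ⟨s, hs⟩ := mwu2 a M κ κ hκ0.le hκ0 (by rw [hM, hκ]; linarith)
    (fun s e => by
      have h1 : 0 ≤ N' * |grad r s.1 e| ^ P / Rs s.1 := div_nonneg (by positivity) (hRs0 _)
      have h2 : N' * |grad r s.1 e| ^ P / Rs s.1 ≤ N' := by
        rw [div_le_iff₀ s.2]; exact mul_le_mul_of_nonneg_left (hRsle _ _) hδ.le
      have h3 : |a s e| ≤ N' + 1 := by
        have := hδ0 e; have := hδ1 e
        simp only [a]; rw [abs_le]; constructor <;> linarith
      rw [hM, hκ]; linarith)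
    (fun ξ => by
      have hT0 : 0 ≤ ∑ e, |ξ e| := sum_nonneg fun e _ => abs_nonneg _
      rcases eq_or_lt_of_le hT0 with h0 | h0
      · obtain ⟨s0⟩ := hne
        refine ⟨s0, ?_⟩
        have h1 := (sum_eq_zero_iff_of_nonneg (fun e _ => abs_nonneg (ξ e))).1 h0.symm
        rw [← h0, sum_eq_zero fun e he => by rw [abs_eq_zero.1 (h1 e he), zero_mul]]
        simp
      · by_contra hcon
        push Not at hcon
        have h1 : ∀ ω, (∑ e, ξ e * δ e + κ * ∑ e, |ξ e|) * Rs (f ω) ≤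
            N' * ∑ e, ξ e * |grad r (f ω) e| ^ P := by
          intro ω
          rcases eq_or_lt_of_le (hRs0 (f ω)) with h2 | h2
          · have h3 : ∀ e, |grad r (f ω) e| ^ P = 0 := fun e =>
              le_antisymm (h2 ▸ hRsle _ e) (by positivity)
            simp only [← h2, h3]; simp
          · have h3 := hcon ⟨f ω, h2⟩
            have h4 : ∑ e, ξ e * a ⟨f ω, h2⟩ e =
                N' * (∑ e, ξ e * |grad r (f ω) e| ^ P) / Rs (f ω) - ∑ e, ξ e * δ e := by
              rw [mul_sum, sum_div, ← sum_sub_distrib]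
              exact sum_congr rfl fun e _ => by simp only [a]; ring
            rw [h4, lt_sub_iff_add_lt, lt_div_iff₀ h2] at h3
            linarith
        have h2 := integral_mono (hRi.const_mul _)
          ((integrable_finsetSum _ fun e _ => (hint e).const_mul (ξ e)).const_mul N') h1
        rw [integral_const_mul, integral_const_mul, hRint,
          integral_finsetSum _ fun e _ => (hint e).const_mul (ξ e)] at h2
        simp only [integral_const_mul, hval] at h2
        have h3 : 0 < κ * (∑ e, |ξ e|) * N' := by positivity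
        linarith)
    d (by rw [← div_le_iff₀' (by positivity)]; linarith)
  let c : Fin d → ℝ := fun k => (N' / (Rs (s k).1 * (d * (1 + 3 * κ)))) ^ (1 / P)
  have hc0 : ∀ k, 0 ≤ c k := fun k => by have := (s k).2; simp only [c]; positivity
  have hc : ∀ k, c k ^ P = N' / (Rs (s k).1 * (d * (1 + 3 * κ))) := by
    intro k
    have := (s k).2
    simp only [c]
    rw [← Real.rpow_mul (by positivity), one_div_mul_cancel hP.ne', Real.rpow_one]
  refine ⟨d, fun k => c k • (s k).1, fun e => ?_⟩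
  have h1 : ∑ k, |grad r (c k • (s k).1) e| ^ P = (∑ k, a (s k) e + d * δ e) / (d * (1 + 3 * κ)) := by
    have h2 : (d:ℝ) * δ e = ∑ _k : Fin d, δ e := by simp
    rw [h2, ← sum_add_distrib, sum_div]
    refine sum_congr rfl fun k _ => ?_
    have h3 : grad r (c k • (s k).1) e = c k * grad r (s k).1 e := by
      simp only [grad, Pi.smul_apply, smul_eq_mul]; ring
    have := (s k).2
    rw [h3, abs_mul, abs_of_nonneg (hc0 k), Real.mul_rpow (hc0 k) (abs_nonneg _), hc]
    simp only [a]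
    field_simp
    ring
  have h2 := abs_le.1 (hs e)
  have h3 := hδ0 e
  have h4 := hδ1 e
  rw [h1, le_div_iff₀ (by positivity), div_le_iff₀ (by positivity)]
  have h5 : ε = 6 * κ := by rw [hκ]; ring
  constructor
  · have h6 : (δ e - 6 * κ) * (1 + 3 * κ) ≤ δ e - 3 * κ := by nlinarith
    have h7 := mul_le_mul_of_nonneg_left h6 hd0.le
    rw [h5]; nlinarith
  · nlinarith

theorem reduce {p ε : ℝ} (hp1 : 1 < p) (hp2 : p ≠ 2) (hε : 0 < ε) (hε1 : ε ≤ 1) : ∃ C : ℝ,
    ∀ {X J : Type} [Fintype X] [DecidableEq X] [Fintype J] (r : X × X → ℝ) (F : J → X → ℝ),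
      2 ≤ Fintype.card X → (∀ e, ∑ j, |grad r (F j) e| ^ p ≤ 1) →
      ∃ d : ℕ, (d : ℝ) ≤ Real.exp (C * Real.log (Fintype.card X) ^ gam p) ∧
        ∃ (G : Fin d → X → ℝ) (S : ℝ), 0 < S ∧ ∀ e,
          abs (∑ k, |grad r (G k) e| ^ p - S * ∑ j, |grad r (F j) e| ^ p) ≤ 3 * ε * S := by
  obtain ⟨c, hc, hcore⟩ := core hp1 hp2 hε hε1
  have hγ := gam_pos hp1 hp2
  refine ⟨(2 * c + 2 + (gam p)⁻¹ + (ε ^ 2)⁻¹ + 2) * 80 ^ gam p, ?_⟩
  intro X J _ _ _ r F hX hσ
  have hne : Nonempty X := Fintype.card_pos_iff.1 (by omega)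
  set L := Real.log (Fintype.card X) with hL
  have hL2 : 1 / 2 ≤ L := by
    have h1 : Real.log 2 ≤ L := Real.log_le_log (by norm_num) (by exact_mod_cast hX)
    have := Real.log_two_gt_d9
    linarith
  have hn0 : (0:ℝ) < Fintype.card X := by exact_mod_cast Fintype.card_pos
  have hE0 : (1:ℝ) ≤ Fintype.card (X × X) := by exact_mod_cast Fintype.card_pos
  have hlogE : Real.log (Fintype.card (X × X)) = 2 * L := by
    rw [Fintype.card_prod, Nat.cast_mul, Real.log_mul hn0.ne' hn0.ne']; ring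
  have hE : (Fintype.card (X × X) : ℝ) ≤ Real.exp (80 * L) := by
    rw [← Real.log_le_iff_le_exp (by linarith), hlogE]; linarith
  obtain ⟨S, M, hS, hM, hMS, h⟩ := hcore (LinearMap.range (gradL r)) (80 * L)
    (fun j => grad r (F j)) (by linarith) hE (goodOp_grad r hX) (fun j => ⟨F j, rfl⟩) hσ
  set Y := (80 * L) ^ gam p with hYdef
  have hY : 1 ≤ Y := Real.one_le_rpow (by linarith) hγ.le
  have hMp : 0 ≤ M ^ p := by positivity
  let 𝒜 := {G : X → ℝ // ∀ e, |grad r G e| ≤ M}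
  set M' := M ^ p + 2 * S with hM'
  have hlog1 : 0 < Real.log (2 * Fintype.card (X × X)) := Real.log_pos (by linarith)
  have hlog2 : Real.log (2 * Fintype.card (X × X)) ≤ 2 * (80 * L) := by
    rw [Real.log_mul (by norm_num) (by linarith), hlogE]
    have := Real.log_two_lt_d9
    linarith
  set D := M' ^ 2 * Real.log (2 * Fintype.card (X × X)) / ε ^ 2 with hD
  have hD0 : 0 < D := by
    have : 0 < M' := by linarith
    positivity
  set d := ⌈D⌉₊ with hd
  have hd1 : D ≤ d := Nat.le_ceil _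
  have hd2 : (d:ℝ) ≤ D + 1 := (Nat.ceil_lt_add_one hD0.le).le
  have hσ0 : ∀ e, 0 ≤ ∑ j, |grad r (F j) e| ^ p := fun e => sum_nonneg fun j _ => by positivity
  obtain ⟨G, hG⟩ := mwu2 (fun (G : 𝒜) e => |grad r G.1 e| ^ p - S * ∑ j, |grad r (F j) e| ^ p)
    M' (ε * S) ε (by positivity) hε (by linarith)
    (fun G e => by
      have h1 : |grad r G.1 e| ^ p ≤ M ^ p := Real.rpow_le_rpow (abs_nonneg _) (G.2 e) (by linarith)
      have h2 : 0 ≤ |grad r G.1 e| ^ p := by positivity
      have h3 := mul_le_mul_of_nonneg_left (hσ e) (show 0 ≤ S by linarith)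
      have h4 := mul_nonneg (show 0 ≤ S by linarith) (hσ0 e)
      have h5 : abs (|grad r G.1 e| ^ p - S * ∑ j, |grad r (F j) e| ^ p) ≤ M ^ p + S := by
        rw [abs_le]; constructor <;> linarith
      have h6 : ε * S ≤ S := mul_le_of_le_one_left (by linarith) hε1
      linarith)
    (fun ξ => by
      obtain ⟨y, ⟨G, rfl⟩, hy2, hy3⟩ := h ξ
      exact ⟨⟨G, hy2⟩, hy3⟩)
    d (by rw [← div_le_iff₀' (by positivity)]; exact hd1)
  refine ⟨d, ?_, fun k => (G k).1, d * S, mul_pos (by linarith) (by linarith), fun e => ?_⟩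
  · have h1 : M' ^ 2 ≤ Real.exp (c * Y) ^ 2 := pow_le_pow_left₀ (by linarith) hMS 2
    rw [← Real.exp_nat_mul] at h1
    have h2 : (2:ℝ) ≤ Real.exp (2 * Y) := le_exp_mul (by norm_num) hY
    have h3 := le_exp_rpow (show 0 < 80 * L by linarith) hγ
    have h4 := le_exp_mul (show 0 ≤ (ε ^ 2)⁻¹ by positivity) hY
    have h5 := mul_le_mul (mul_le_mul h1 (hlog2.trans (mul_le_mul h2 h3 (by linarith)
      (by positivity))) hlog1.le (by positivity)) h4 (by positivity) (by positivity)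
    rw [← Real.exp_add, ← Real.exp_add, ← Real.exp_add, ← div_eq_mul_inv, ← hD, ← hYdef] at h5
    set Z := ((2:ℕ):ℝ) * (c * Y) + (2 * Y + (gam p)⁻¹ * Y) + (ε ^ 2)⁻¹ * Y with hZ
    have h6 : 1 ≤ Real.exp Z := Real.one_le_exp (by positivity)
    have h7 : (2 * c + 2 + (gam p)⁻¹ + (ε ^ 2)⁻¹ + 2) * 80 ^ gam p * L ^ gam p = Z + 2 * Y := by
      rw [mul_assoc, ← Real.mul_rpow (by norm_num) (by linarith), ← hYdef, hZ]; push_cast; ring
    rw [h7, Real.exp_add]
    nlinarith
  · have h1 := hG e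
    simp only [sum_sub_distrib, sum_const, card_univ, Fintype.card_fin, nsmul_eq_mul] at h1
    rw [mul_assoc (d:ℝ)]
    refine h1.trans ?_
    have h2 : 0 ≤ ε * d * (S - 1) := mul_nonneg (by positivity) (by linarith)
    nlinarith

end Crest.Agent.R232
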