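import Crest.Agent.R232.Entropy

set_option autoImplicit false
open Finset

namespace Crest.Agent.R232

variable {X : Type} [Fintype X] [DecidableEq X]

/-- weighted discrete gradient -/
def grad (r : X × X → ℝ) (F : X → ℝ) : X × X → ℝ := fun e => r e * (F e.1 - F e.2)

omit [DecidableEq X] in
lemma sum_sym (c : X × X → ℝ) (φ : X → X → ℝ) :
    ∑ x, ∑ y, (c (x, y) + c (y, x)) * φ x y = ∑ e : X × X, c e * (φ e.1 e.2 + φ e.2 e.1) := by
  simp only [add_mul, mul_add, sum_add_distrib, Fintype.sum_prod_type]
  congr 1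
  exact sum_comm

lemma green (r w : X × X → ℝ) (u : X → ℝ) (x : X) :
    ∑ e, w e * (grad r u e * grad r (Pi.single x 1) e) =
      ∑ y, (w (x, y) * r (x, y) ^ 2 + w (y, x) * r (y, x) ^ 2) * (u x - u y) := by
  have h := sum_sym (fun e => w e * r e ^ 2)
    (fun a b => (Pi.single x (1:ℝ) : X → ℝ) a * (u a - u b))
  have h2 : ∑ a, ∑ y, (w (a, y) * r (a, y) ^ 2 + w (y, a) * r (y, a) ^ 2) *
      ((Pi.single x (1:ℝ) : X → ℝ) a * (u a - u y)) =
      ∑ y, (w (x, y) * r (x, y) ^ 2 + w (y, x) * r (y, x) ^ 2) * (u x - u y) := by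
    rw [sum_eq_single x]
    · simp
    · intro b _ hb; simp [hb]
    · simp
  rw [← h2, h]
  refine sum_congr rfl fun e _ => ?_
  unfold grad; ring

lemma half_sum (α b : ℕ → ℝ) (hα : ∀ i, 0 ≤ α i) (h0 : ∀ i, b (i + i) ≤ α i)
    (h1 : ∀ i, b (i + (i + 1)) ≤ (α i + α (i + 1)) / 2) (N : ℕ) :
    ∑ k ∈ range (2 * N), b k ≤ 2 * ∑ i ∈ range (N + 1), α i := by
  have key : ∀ N, ∑ k ∈ range (2 * N), b k ≤ 2 * ∑ i ∈ range N, α i + α N / 2 := by
    intro N
    induction N with
    | zero => simpa using div_nonneg (hα 0) (by norm_num : (0:ℝ) ≤ 2)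
    | succ N ih =>
      rw [show 2 * (N + 1) = 2 * N + 1 + 1 by ring, sum_range_succ, sum_range_succ, sum_range_succ]
      have e0 := h0 N
      have e1 := h1 N
      rw [show N + N = 2 * N by ring] at e0
      rw [show N + (N + 1) = 2 * N + 1 by ring] at e1
      have := hα N
      linarith
  have := key N
  rw [sum_range_succ]
  have := hα N
  linarith

/-- localisation of electrical flows -/
theorem localisation (r w : X × X → ℝ) (hw : ∀ e, 0 < w e) (u : X × X → X → ℝ)
    (hu : ∀ f v, ∑ e, w e * (grad r (u f) e * grad r v e) = w f * grad r v f) :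
    ∑ e, w e * ∑ f, |grad r (u f) e| ≤ 24 * (∑ e, w e) * Real.log (Fintype.card X) := by
  let c' : X → X → ℝ := fun x y => w (x, y) * r (x, y) ^ 2 + w (y, x) * r (y, x) ^ 2
  have hc' : ∀ x y, 0 ≤ c' x y := fun x y => by
    have := hw (x, y); have := hw (y, x); simp only [c']; positivity
  let m : X → ℝ := fun x => ∑ y, (w (x, y) + w (y, x))
  have hm : ∀ x, 0 < m x := fun x =>
    sum_pos (fun y _ => add_pos (hw _) (hw _)) ⟨x, mem_univ _⟩
  let deg : X → ℝ := fun x => ∑ y, c' x y
  have hdeg : ∀ x, 0 ≤ deg x := fun x => sum_nonneg fun y _ => hc' x y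
  have hsum0 : 0 ≤ ∑ x, deg x / m x := sum_nonneg fun x _ => div_nonneg (hdeg x) (hm x).le
  set ε : ℝ := 1 / (2 * (1 + ∑ x, deg x / m x)) with hε
  have hε0 : 0 < ε := by positivity
  have hεd : ∀ x, ε * deg x / m x ≤ 1 / 2 := by
    intro x
    have h1 : deg x / m x ≤ ∑ x, deg x / m x :=
      single_le_sum (f := fun x => deg x / m x) (fun x _ => div_nonneg (hdeg x) (hm x).le)
        (mem_univ x)
    rw [mul_div_assoc, hε, one_div_mul_eq_div, div_le_div_iff₀ (by positivity) (by norm_num)]
    linarith
  let Q : Matrix X X ℝ := fun x y =>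
    (if x = y then 1 - ε * deg x / m x else 0) + ε * c' x y / m x
  have hQ : RevKernel m Q := by
    refine ⟨hm, fun x y => ?_, fun x => ?_, fun x => ?_, fun x y => ?_⟩
    · have h1 := hεd x
      have h2 : 0 ≤ ε * c' x y / m x := div_nonneg (mul_nonneg hε0.le (hc' x y)) (hm x).le
      simp only [Q]; split_ifs <;> linarith
    · simp only [Q, sum_add_distrib, sum_ite_eq, mem_univ, if_true, ← sum_div, ← mul_sum]
      simp only [deg]; ring
    · have h1 := hεd x
      have h2 : 0 ≤ ε * c' x x / m x := div_nonneg (mul_nonneg hε0.le (hc' x x)) (hm x).le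
      simp only [Q, if_true]; linarith
    · by_cases hxy : x = y
      · subst hxy; rfl
      · have h1 := (hm x).ne'
        have h2 := (hm y).ne'
        simp only [Q, if_neg hxy, if_neg (Ne.symm hxy), zero_add, c']
        field_simp
        ring
  have hQv : ∀ (v : X → ℝ) x, ∑ y, Q x y * v y = v x - ε / m x * ∑ y, c' x y * (v x - v y) := by
    intro v x
    simp only [Q, add_mul, sum_add_distrib, ite_mul, zero_mul, sum_ite_eq, mem_univ, if_true,
      mul_sub, sum_sub_distrib, ← sum_mul]
    rw [mul_sum (s := univ) (f := fun y => c' x y * v y)]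
    have : ∀ y, ε * c' x y / m x * v y = ε / m x * (c' x y * v y) := fun y => by ring
    simp only [this, deg]
    ring
  let a : X × X → ℝ := fun e => w e * r e
  let β : X × X → X → ℝ := fun f x =>
    a f * ((if f.1 = x then 1 else 0) - (if f.2 = x then 1 else 0))
  have hstep : ∀ f x, u f x = ∑ y, Q x y * u f y + ε * (β f x / m x) := by
    intro f x
    have h1 := hu f (Pi.single x 1)
    rw [green] at h1
    rw [hQv]
    have h2 : ∑ y, c' x y * (u f x - u f y) = β f x := by
      rw [h1]
      simp only [β, a, grad, Pi.single_apply]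
      ring
    rw [h2]; ring
  have hβ : ∀ f k x, ∑ y, hk m Q k x y * β f y = a f * (hk m Q k x f.1 - hk m Q k x f.2) := by
    intro f k x
    simp only [β, mul_sub, sum_sub_distrib, mul_ite, mul_one, mul_zero, sum_ite_eq, mem_univ,
      if_true]
    ring
  have hiter : ∀ f N x, u f x = ∑ z, m z * hk m Q N x z * u f z +
      ε * ∑ k ∈ range N, a f * (hk m Q k x f.1 - hk m Q k x f.2) := by
    intro f N
    induction N with
    | zero =>
      intro x
      simp only [hQ.mul_hk, pow_zero, Matrix.one_apply]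
      simp
    | succ N ih =>
      intro x
      rw [sum_range_succ, ← hβ f N x, ih x]
      simp only [hQ.mul_hk]
      have h1 : ∑ z, (Q ^ N) x z * u f z =
          ∑ z, (Q ^ N) x z * (∑ y, Q z y * u f y + ε * (β f z / m z)) :=
        sum_congr rfl fun z _ => by rw [← hstep]
      have h2 : ∑ z, (Q ^ (N + 1)) x z * u f z = ∑ z, (Q ^ N) x z * ∑ y, Q z y * u f y := by
        simp only [pow_succ, Matrix.mul_apply, sum_mul, mul_sum]
        rw [sum_comm]
        exact sum_congr rfl fun z _ => sum_congr rfl fun y _ => by ring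
      have h3 : ε * ∑ y, hk m Q N x y * β f y = ∑ z, (Q ^ N) x z * (ε * (β f z / m z)) := by
        rw [mul_sum]
        exact sum_congr rfl fun z _ => by unfold hk; ring
      rw [h1, h2, mul_add, h3]
      simp only [mul_add, sum_add_distrib]
      ring
  let A : ℕ → X → ℝ := fun k z => ∑ e, |a e| * |hk m Q k e.1 z - hk m Q k e.2 z|
  have hA0 : ∀ k z, 0 ≤ A k z := fun k z => sum_nonneg fun e _ => by positivity
  have hA : ∀ k z, ε * A k z ^ 2 ≤
      ∑ x, ∑ y, m x * Q x y * (√(hk m Q k x z) - √(hk m Q k y z)) ^ 2 := by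
    intro k z
    set f : X → ℝ := fun x => hk m Q k x z with hf
    have hf0 : ∀ x, 0 ≤ f x := fun x => hQ.hk_nonneg k x z
    have h1 : A k z ^ 2 ≤ (∑ e : X × X, w e * (√(f e.1) + √(f e.2)) ^ 2) *
        ∑ e : X × X, w e * r e ^ 2 * (√(f e.1) - √(f e.2)) ^ 2 := by
      apply sum_sq_le_sum_mul_sum_of_sq_le_mul
      · intro e _; have := hw e; positivity
      · intro e _; have := hw e; positivity
      · intro e _
        have e1 : hk m Q k e.1 z - hk m Q k e.2 z =
            (√(f e.1) + √(f e.2)) * (√(f e.1) - √(f e.2)) := by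
          have a1 := Real.mul_self_sqrt (hf0 e.1)
          have a2 := Real.mul_self_sqrt (hf0 e.2)
          show f e.1 - f e.2 = _
          nlinarith
        rw [mul_pow, sq_abs, sq_abs, e1]
        apply le_of_eq
        simp only [a]; ring
    have h2 : ∑ e : X × X, w e * (√(f e.1) + √(f e.2)) ^ 2 ≤ 2 := by
      have h3 : ∑ e : X × X, w e * (f e.1 + f e.2) = 1 := by
        rw [← sum_sym w (fun x _ => f x), ← hQ.hk_mass k z]
        exact sum_congr rfl fun x _ => by rw [← sum_mul]
      calc _ ≤ ∑ e : X × X, 2 * (w e * (f e.1 + f e.2)) := by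
            refine sum_le_sum fun e _ => ?_
            have a1 := Real.sq_sqrt (hf0 e.1)
            have a2 := Real.sq_sqrt (hf0 e.2)
            have a3 : (√(f e.1) + √(f e.2)) ^ 2 ≤ 2 * (f e.1 + f e.2) := by
              nlinarith [sq_nonneg (√(f e.1) - √(f e.2))]
            have := mul_le_mul_of_nonneg_left a3 (hw e).le
            linarith
        _ = 2 := by rw [← mul_sum, h3, mul_one]
    have h4 : ∑ x, ∑ y, m x * Q x y * (√(f x) - √(f y)) ^ 2 =
        2 * ε * ∑ e : X × X, w e * r e ^ 2 * (√(f e.1) - √(f e.2)) ^ 2 := by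
      have h5 := sum_sym (fun e => w e * r e ^ 2) (fun x y => ε * (√(f x) - √(f y)) ^ 2)
      rw [mul_sum]
      have h6 : ∀ x y, m x * Q x y * (√(f x) - √(f y)) ^ 2 =
          c' x y * (ε * (√(f x) - √(f y)) ^ 2) := by
        intro x y
        by_cases hxy : x = y
        · subst hxy; simp
        · have h1 := (hm x).ne'
          simp only [Q, if_neg hxy, zero_add]
          field_simp
      simp only [h6]
      rw [h5]
      exact sum_congr rfl fun e _ => by ring
    have h7 : 0 ≤ ∑ e : X × X, w e * r e ^ 2 * (√(f e.1) - √(f e.2)) ^ 2 :=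
      sum_nonneg fun e _ => by have := hw e; positivity
    have h8 := mul_le_mul_of_nonneg_right h2 h7
    have h9 := mul_le_mul_of_nonneg_left (h1.trans h8) hε0.le
    rw [h4]; linarith
  have hAsum : ∀ z N, ε * ∑ k ∈ range N, A k z ^ 2 ≤ 6 * Real.log ((∑ x, m x) / m z) := by
    intro z N
    rw [mul_sum]
    exact le_trans (sum_le_sum fun k _ => hA k z) (hQ.ent_sum z N)
  have hAlim : ∀ z, Filter.Tendsto (fun k => A k z) Filter.atTop (nhds 0) := by
    intro z
    have h1 : Summable (fun k => A k z ^ 2) := by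
      apply summable_of_sum_range_le (c := 6 * Real.log ((∑ x, m x) / m z) / ε)
        (fun k => sq_nonneg _)
      intro N
      rw [le_div_iff₀ hε0, mul_comm]
      exact hAsum z N
    have h2 := h1.tendsto_atTop_zero.sqrt
    simpa [Real.sqrt_sq (hA0 _ z)] using h2
  let α : ℕ → ℝ := fun k => ∑ z, m z * A k z ^ 2
  have hα0 : ∀ k, 0 ≤ α k := fun k => sum_nonneg fun z _ => mul_nonneg (hm z).le (sq_nonneg _)
  have hαsum : ∀ N, ε * ∑ k ∈ range N, α k ≤ 6 * ((∑ x, m x) * Real.log (Fintype.card X)) := by
    intro N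
    calc ε * ∑ k ∈ range N, α k = ∑ z, m z * (ε * ∑ k ∈ range N, A k z ^ 2) := by
          simp only [α, mul_sum]
          rw [sum_comm]
          exact sum_congr rfl fun z _ => sum_congr rfl fun k _ => by ring
      _ ≤ ∑ z, m z * (6 * Real.log ((∑ x, m x) / m z)) :=
          sum_le_sum fun z _ => mul_le_mul_of_nonneg_left (hAsum z N) (hm z).le
      _ = 6 * ∑ z, m z * Real.log ((∑ x, m x) / m z) := by
          rw [mul_sum]; exact sum_congr rfl fun z _ => by ring
      _ ≤ _ := mul_le_mul_of_nonneg_left hQ.sum_log_le (by norm_num)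
  let D : ℕ → X × X → X × X → ℝ := fun k e f =>
    (hk m Q k e.1 f.1 - hk m Q k e.1 f.2) - (hk m Q k e.2 f.1 - hk m Q k e.2 f.2)
  let b : ℕ → ℝ := fun k => ∑ e, ∑ f, |a e| * |a f| * |D k e f|
  have hb : ∀ i j, b (i + j) ≤ (α i + α j) / 2 := by
    intro i j
    have h1 : ∀ e f, |D (i + j) e f| ≤ ∑ z, m z * (|hk m Q i e.1 z - hk m Q i e.2 z| *
        |hk m Q j f.1 z - hk m Q j f.2 z|) := by
      intro e f
      have : D (i + j) e f = ∑ z, m z * ((hk m Q i e.1 z - hk m Q i e.2 z) *
          (hk m Q j f.1 z - hk m Q j f.2 z)) := by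
        simp only [D, hQ.hk_add, ← sum_sub_distrib]
        exact sum_congr rfl fun z _ => by ring
      rw [this]
      refine (abs_sum_le_sum_abs _ _).trans (le_of_eq (sum_congr rfl fun z _ => ?_))
      rw [abs_mul, abs_mul, abs_of_pos (hm z)]
    calc b (i + j) ≤ ∑ e, ∑ f, |a e| * |a f| * ∑ z, m z * (|hk m Q i e.1 z - hk m Q i e.2 z| *
          |hk m Q j f.1 z - hk m Q j f.2 z|) :=
          sum_le_sum fun e _ => sum_le_sum fun f _ =>
            mul_le_mul_of_nonneg_left (h1 e f) (by positivity)
      _ = ∑ z, m z * (A i z * A j z) := by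
          simp only [A, sum_mul_sum]
          simp only [mul_sum]
          rw [sum_comm (γ := X)]
          refine sum_congr rfl fun e _ => ?_
          rw [sum_comm (γ := X)]
          exact sum_congr rfl fun f _ => sum_congr rfl fun z _ => by ring
      _ ≤ ∑ z, (m z * A i z ^ 2 + m z * A j z ^ 2) / 2 := by
          refine sum_le_sum fun z _ => ?_
          have := mul_nonneg (hm z).le (sq_nonneg (A i z - A j z))
          nlinarith
      _ = (α i + α j) / 2 := by rw [← sum_div, sum_add_distrib]
  have hbsum : ∀ N, ε * ∑ k ∈ range (2 * N), b k ≤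
      12 * ((∑ x, m x) * Real.log (Fintype.card X)) := by
    intro N
    have h1 := half_sum α b hα0 (fun i => by have := hb i i; linarith) (fun i => hb i (i + 1)) N
    have h2 := hαsum (N + 1)
    have h3 := mul_le_mul_of_nonneg_left h1 hε0.le
    linarith
  have hmain : ∀ N, ∑ e, w e * ∑ f, |grad r (u f) e| ≤
      ∑ f, ∑ z, m z * |u f z| * A N z + ε * ∑ k ∈ range N, b k := by
    intro N
    have h1 : ∀ e f, w e * |grad r (u f) e| ≤
        ∑ z, m z * |u f z| * (|a e| * |hk m Q N e.1 z - hk m Q N e.2 z|) +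
          ε * ∑ k ∈ range N, |a e| * |a f| * |D k e f| := by
      intro e f
      have h2 : w e * grad r (u f) e =
          ∑ z, m z * u f z * (a e * (hk m Q N e.1 z - hk m Q N e.2 z)) +
            ε * ∑ k ∈ range N, a e * a f * D k e f := by
        unfold grad
        rw [hiter f N e.1, hiter f N e.2]
        have e1 : ∑ z, m z * u f z * (a e * (hk m Q N e.1 z - hk m Q N e.2 z)) =
            a e * (∑ z, m z * hk m Q N e.1 z * u f z - ∑ z, m z * hk m Q N e.2 z * u f z) := by
          rw [← sum_sub_distrib, mul_sum]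
          exact sum_congr rfl fun z _ => by ring
        have e2 : ∑ k ∈ range N, a e * a f * D k e f =
            a e * (∑ k ∈ range N, a f * (hk m Q k e.1 f.1 - hk m Q k e.1 f.2) -
              ∑ k ∈ range N, a f * (hk m Q k e.2 f.1 - hk m Q k e.2 f.2)) := by
          rw [← sum_sub_distrib, mul_sum]
          exact sum_congr rfl fun z _ => by simp only [D]; ring
        rw [e1, e2]
        simp only [a]; ring
      rw [← abs_of_pos (hw e), ← abs_mul, h2]
      refine (abs_add_le _ _).trans (add_le_add ?_ ?_)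
      · refine (abs_sum_le_sum_abs _ _).trans (le_of_eq (sum_congr rfl fun z _ => ?_))
        simp only [abs_mul, abs_of_pos (hm z)]
      · rw [abs_mul, abs_of_pos hε0]
        refine mul_le_mul_of_nonneg_left ?_ hε0.le
        refine (abs_sum_le_sum_abs _ _).trans (le_of_eq (sum_congr rfl fun z _ => ?_))
        simp only [abs_mul]
    calc ∑ e, w e * ∑ f, |grad r (u f) e| = ∑ e, ∑ f, w e * |grad r (u f) e| := by
          simp only [mul_sum]
      _ ≤ ∑ e, ∑ f, (∑ z, m z * |u f z| * (|a e| * |hk m Q N e.1 z - hk m Q N e.2 z|) +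
          ε * ∑ k ∈ range N, |a e| * |a f| * |D k e f|) :=
          sum_le_sum fun e _ => sum_le_sum fun f _ => h1 e f
      _ = _ := by
          simp only [sum_add_distrib]
          congr 1
          · rw [sum_comm]
            refine sum_congr rfl fun f _ => ?_
            rw [sum_comm]
            exact sum_congr rfl fun z _ => by simp only [A, mul_sum]
          · simp only [b, ← mul_sum]
            congr 1
            rw [sum_comm (s := range N)]
            refine sum_congr rfl fun e _ => ?_
            rw [sum_comm (s := range N)]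
            simp only [mul_sum]
  have hmsum : ∑ x, m x = 2 * ∑ e, w e := by
    have := sum_sym w (fun _ _ => 1)
    simp only [mul_one] at this
    simp only [m]
    rw [this, mul_sum]
    exact sum_congr rfl fun e _ => by ring
  have hlim : Filter.Tendsto (fun N => ∑ f, ∑ z, m z * |u f z| * A (2 * N) z +
      12 * ((∑ x, m x) * Real.log (Fintype.card X))) Filter.atTop
      (nhds (∑ f : X × X, ∑ z, m z * |u f z| * 0 +
        12 * ((∑ x, m x) * Real.log (Fintype.card X)))) := by
    refine Filter.Tendsto.add_const _ (tendsto_finsetSum _ fun f _ =>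
      tendsto_finsetSum _ fun z _ => Filter.Tendsto.const_mul _ ?_)
    exact (hAlim z).comp (Filter.tendsto_id.const_mul_atTop' (by norm_num))
  have hfin := ge_of_tendsto' hlim (fun N => (hmain (2 * N)).trans (by
    have := hbsum N; linarith))
  simp only [mul_zero, sum_const_zero, zero_add, hmsum] at hfin
  linarith

end Crest.Agent.R232
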