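import Mathlib

set_option autoImplicit false
open MeasureTheory
open scoped ENNReal

namespace Crest.Agent.R232

lemma toReal_one_lt {p : ℝ≥0∞} (hp1 : 1 < p) (hptop : p ≠ ⊤) : 1 < p.toReal := by
  have := (ENNReal.toReal_lt_toReal (by simp) hptop).2 hp1
  simpa using this

lemma toReal_ne_two {p : ℝ≥0∞} (hptop : p ≠ ⊤) (hp2 : p ≠ 2) : p.toReal ≠ 2 := by
  intro h
  apply hp2
  rw [← ENNReal.ofReal_toReal hptop, h]
  simp

lemma piLp_norm_rpow {p : ℝ≥0∞} (hp : 0 < p.toReal) {ι : Type*} [Fintype ι]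
    (y : PiLp p (fun _ : ι => ℝ)) : ‖y‖ ^ p.toReal = ∑ i, |y.ofLp i| ^ p.toReal := by
  rw [PiLp.norm_eq_sum hp, ← Real.rpow_mul (Finset.sum_nonneg fun i _ => by positivity),
    one_div_mul_cancel hp.ne', Real.rpow_one]
  simp

lemma lp_norm_rpow {p : ℝ≥0∞} (hp : 0 < p.toReal) (hptop : p ≠ ⊤) {α : Type*} [MeasurableSpace α]
    {μ : Measure α} (f : Lp ℝ p μ) : ‖f‖ ^ p.toReal = ∫ ω, |f ω| ^ p.toReal ∂μ := by
  have hp0 : p ≠ 0 := by rintro rfl; simp at hp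
  have hnn : 0 ≤ ∫ ω, ‖f ω‖ ^ p.toReal ∂μ := integral_nonneg fun ω => by positivity
  rw [Lp.norm_def, (Lp.memLp f).eLpNorm_eq_integral_rpow_norm hp0 hptop,
    ENNReal.toReal_ofReal (by positivity), ← Real.rpow_mul hnn, inv_mul_cancel₀ hp.ne',
    Real.rpow_one]
  simp

lemma lp_integrable {p : ℝ≥0∞} (hp : 0 < p.toReal) (hptop : p ≠ ⊤) {α : Type*} [MeasurableSpace α]
    {μ : Measure α} (f g : Lp ℝ p μ) :
    Integrable (fun ω => |f ω - g ω| ^ p.toReal) μ := by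
  have hp0 : p ≠ 0 := by rintro rfl; simp at hp
  have := ((Lp.memLp f).sub (Lp.memLp g)).integrable_norm_rpow hp0 hptop
  simpa using this

lemma lp_dist_rpow {p : ℝ≥0∞} (hp : 0 < p.toReal) (hptop : p ≠ ⊤) {α : Type*} [MeasurableSpace α]
    {μ : Measure α} (f g : Lp ℝ p μ) :
    ‖f - g‖ ^ p.toReal = ∫ ω, |f ω - g ω| ^ p.toReal ∂μ := by
  rw [lp_norm_rpow hp hptop]
  apply integral_congr_ae
  filter_upwards [Lp.coeFn_sub f g] with ω hω
  rw [hω]; rfl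

end Crest.Agent.R232
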