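import Crest.Agent.R232.Ex

set_option autoImplicit false
open Finset

namespace Crest.Agent.R232

lemma tail_pointwise {p θ M : ℝ} (hp : 0 < p) (hθ : 0 < θ) (a b : ℝ) (hb : M < |b|) :
    |a| ^ p ≤ θ ^ p * (2 * p) ^ p * Real.exp (-(M / (2 * θ))) *
      (Real.cosh (a / θ) + Real.cosh (b / θ)) := by
  have h1 := rpow_le_exp hp (show 0 ≤ |a / θ| / 2 by positivity)
  have h2 : |a| ^ p = θ ^ p * 2 ^ p * (|a / θ| / 2) ^ p := by
    rw [← Real.mul_rpow hθ.le (by norm_num), ← Real.mul_rpow (by positivity) (by positivity)]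
    congr 1
    rw [abs_div, abs_of_pos hθ]; field_simp
  have h3 : 1 ≤ Real.exp (-(M / (2 * θ))) * Real.exp (|b / θ| / 2) := by
    rw [← Real.exp_add]
    apply Real.one_le_exp
    rw [abs_div, abs_of_pos hθ]
    have : M / (2 * θ) ≤ |b| / θ / 2 := by
      rw [div_div, mul_comm θ 2]
      exact div_le_div_of_nonneg_right hb.le (by positivity)
    linarith
  have h4 : Real.exp (|a / θ| / 2) * Real.exp (|b / θ| / 2) ≤
      Real.cosh (a / θ) + Real.cosh (b / θ) := by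
    have e1 := exp_abs_le_cosh (a / θ)
    have e2 := exp_abs_le_cosh (b / θ)
    have e3 : ∀ x : ℝ, Real.exp x = Real.exp (x / 2) ^ 2 := fun x => by
      rw [← Real.exp_nat_mul]; congr 1; push_cast; ring
    rw [e3 |a / θ|] at e1
    rw [e3 |b / θ|] at e2
    nlinarith [sq_nonneg (Real.exp (|a / θ| / 2) - Real.exp (|b / θ| / 2))]
  have h5 : Real.exp (|a / θ| / 2) ≤
      Real.exp (-(M / (2 * θ))) * (Real.cosh (a / θ) + Real.cosh (b / θ)) := by
    calc Real.exp (|a / θ| / 2) ≤ Real.exp (|a / θ| / 2) *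
          (Real.exp (-(M / (2 * θ))) * Real.exp (|b / θ| / 2)) :=
          le_mul_of_one_le_right (Real.exp_pos _).le h3
      _ = Real.exp (-(M / (2 * θ))) * (Real.exp (|a / θ| / 2) * Real.exp (|b / θ| / 2)) := by ring
      _ ≤ _ := mul_le_mul_of_nonneg_left h4 (Real.exp_pos _).le
  rw [h2, Real.mul_rpow (by norm_num) hp.le]
  calc θ ^ p * 2 ^ p * (|a / θ| / 2) ^ p ≤ θ ^ p * 2 ^ p * (p ^ p * (Real.exp (-(M / (2 * θ))) *
        (Real.cosh (a / θ) + Real.cosh (b / θ)))) :=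
        mul_le_mul_of_nonneg_left (h1.trans (mul_le_mul_of_nonneg_left h5 (by positivity)))
          (by positivity)
    _ = _ := by ring

open Classical in
theorem prob_step {p η : ℝ} (hp : 1 ≤ p) (hη : 0 < η) (hη1 : η ≤ 1) : ∃ C : ℝ, 1 ≤ C ∧
    ∀ {E ι : Type} [Fintype E] (𝒢 : Submodule ℝ (E → ℝ)) (s : Finset ι) (q : ι → ℝ)
      (z : ι → 𝒢) (a : ι → E → ℝ) (θ M : ℝ), (∀ i, 0 ≤ q i) → (∀ i, q i ≤ 1) →
      (∀ e, ∑ i ∈ s, (if a i e = 0 then 0 else q i) ≤ η / (4 * 2 ^ p)) →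
      (p ≤ 2 ∨ ∀ e, ∑ i ∈ s, q i * ((z i).1 e - a i e) ^ 2 ≤ 1) →
      0 < θ → (∀ i e, |(z i).1 e| ≤ θ) → (∀ e, ∑ i ∈ s, q i * (z i).1 e ^ 2 ≤ θ ^ 2) →
      0 ≤ M → 6 * (Fintype.card E) * (θ ^ p * (2 * p) ^ p) ≤ Real.exp (M / (2 * θ)) →
      ∀ ξ : E → ℝ, ∃ y ∈ 𝒢, (∀ e, |y e| ≤ M) ∧
        ∑ e, ξ e * (|y e| ^ p - ∑ i ∈ s, q i * |a i e| ^ p) ≤
          ∑ e, |ξ e| * (3 * η * ∑ i ∈ s, q i * |a i e| ^ p +
            C * (∑ i ∈ s, q i * |(z i).1 e - a i e| ^ p + 1)) := by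
  obtain ⟨C1, hC1, h1⟩ := perturb hp hη hη1
  obtain ⟨C2, hC2, h2⟩ := Ex_rosenthal hp
  have hp0 : 0 < p := by linarith
  have h12 : 1 ≤ C1 * C2 := one_le_mul_of_one_le_of_one_le hC1 hC2
  refine ⟨C1 * C2 + 1, by linarith, ?_⟩
  intro E ι _ 𝒢 s q z a θ M hq0 hq1 hsp hV hθ hzθ hzV hM0 hM ξ
  let u : ι → 𝒢 × (E → ℝ) := fun i => (z i, a i)
  let l := s.toList
  let tr : 𝒢 × (E → ℝ) → E → ℝ := fun v => if ∀ f, |v.1.1 f| ≤ M then v.1.1 else 0
  let πZ : E → (𝒢 × (E → ℝ) →+ ℝ) := fun e =>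
    { toFun := fun v => v.1.1 e, map_zero' := rfl, map_add' := fun _ _ => rfl }
  let πA : E → (𝒢 × (E → ℝ) →+ ℝ) := fun e =>
    { toFun := fun v => v.2 e, map_zero' := rfl, map_add' := fun _ _ => rfl }
  let πG : E → (𝒢 × (E → ℝ) →+ ℝ) := fun e => πZ e - πA e
  have hsum : ∀ f : ι → ℝ, (l.map f).sum = ∑ i ∈ s, f i := fun f => sum_map_toList s f
  have hcosh : ∀ e, Ex q u l (fun v => Real.cosh (v.1.1 e / θ)) ≤ 3 := by
    intro e
    have := Ex_map (q := q) (u := u) (πZ e) l (fun x => Real.cosh (x / θ))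
    refine this.trans_le (Ex_cosh hq0 hq1 hθ (fun i => hzθ i e) l ?_)
    rw [hsum]; exact hzV e
  have hkey : ∀ e, abs (Ex q u l (fun v => |tr v e| ^ p) - ∑ i ∈ s, q i * |a i e| ^ p) ≤
      3 * η * ∑ i ∈ s, q i * |a i e| ^ p +
        (C1 * C2 + 1) * (∑ i ∈ s, q i * |(z i).1 e - a i e| ^ p + 1) := by
    intro e
    set μ := ∑ i ∈ s, q i * |a i e| ^ p with hμ
    set A := ∑ i ∈ s, q i * |(z i).1 e - a i e| ^ p with hA
    have hμ0 : 0 ≤ μ := sum_nonneg fun i _ => mul_nonneg (hq0 i) (by positivity)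
    have hA0 : 0 ≤ A := sum_nonneg fun i _ => mul_nonneg (hq0 i) (by positivity)
    have eA := Ex_map (q := q) (u := u) (πA e) l (fun x => |x| ^ p)
    have eG := Ex_map (q := q) (u := u) (πG e) l (fun x => |x| ^ p)
    have m1 : Ex q u l (fun v => |v.2 e| ^ p) ≤ (1 + η) * μ := by
      refine eA.trans_le ?_
      have := Ex_sparse_upper (y := fun i => a i e) hp hq0 hq1 η hη1 l (by rw [hsum]; exact hsp e)
      rwa [hsum] at this
    have m2 : (1 - η) * μ ≤ Ex q u l (fun v => |v.2 e| ^ p) := by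
      refine le_trans ?_ eA.ge
      have h2p : (1:ℝ) ≤ 2 ^ p := Real.one_le_rpow (by norm_num) (by linarith)
      have := Ex_sparse_lower (y := fun i => a i e) hp hq0 hq1 η l (by
        rw [hsum]; refine (hsp e).trans ?_
        rw [div_le_iff₀ (by positivity)]; nlinarith)
      rwa [hsum] at this
    have m3 : Ex q u l (fun v => |v.1.1 e - v.2 e| ^ p) ≤ C2 * (A + 1) := by
      refine eG.trans_le ?_
      have := h2 q (fun i => (z i).1 e - a i e) hq0 hq1 l
        (hV.imp id fun h => by rw [hsum]; exact h e)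
      rwa [hsum] at this
    have m4 : Ex q u l (fun v => |tr v e| ^ p) ≤
        Ex q u l (fun v => (1 + η) * |v.2 e| ^ p + C1 * |v.1.1 e - v.2 e| ^ p + 0) := by
      apply Ex_mono hq0 hq1
      intro v
      have e1 := (abs_le.1 (h1 (v.2 e) (v.1.1 e - v.2 e))).2
      rw [add_sub_cancel] at e1
      have e2 : |tr v e| ^ p ≤ |v.1.1 e| ^ p := by
        simp only [tr]; split_ifs
        · exact le_rfl
        · simp only [Pi.zero_apply, abs_zero, Real.zero_rpow hp0.ne']; positivity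
      linarith
    set δ := θ ^ p * (2 * p) ^ p * Real.exp (-(M / (2 * θ))) with hδ
    have hδ0 : 0 ≤ δ := by positivity
    have m5 : Ex q u l (fun v => (1 - η) * |v.2 e| ^ p + (-C1) * |v.1.1 e - v.2 e| ^ p + 0) ≤
        Ex q u l (fun v => 1 * |tr v e| ^ p +
          δ * (∑ f, (Real.cosh (v.1.1 e / θ) + Real.cosh (v.1.1 f / θ))) + 0) := by
      apply Ex_mono hq0 hq1
      intro v
      have e1 := (abs_le.1 (h1 (v.2 e) (v.1.1 e - v.2 e))).1
      rw [add_sub_cancel] at e1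
      have hpos : ∀ f, 0 ≤ Real.cosh (v.1.1 e / θ) + Real.cosh (v.1.1 f / θ) := fun f =>
        add_nonneg (Real.cosh_pos _).le (Real.cosh_pos _).le
      have e2 : |v.1.1 e| ^ p ≤ |tr v e| ^ p +
          δ * (∑ f, (Real.cosh (v.1.1 e / θ) + Real.cosh (v.1.1 f / θ))) := by
        simp only [tr]; split_ifs with hv
        · have := mul_nonneg hδ0 (sum_nonneg fun f (_ : f ∈ univ) => hpos f)
          linarith
        · push Not at hv
          obtain ⟨f, hf⟩ := hv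
          have e3 := tail_pointwise hp0 hθ (v.1.1 e) (v.1.1 f) hf
          have e4 := single_le_sum (fun f (_ : f ∈ univ) => hpos f) (mem_univ f)
          have e5 := mul_le_mul_of_nonneg_left e4 hδ0
          simp only [Pi.zero_apply, abs_zero, Real.zero_rpow hp0.ne']
          linarith
      linarith
    have m6 : δ * Ex q u l (fun v => ∑ f, (Real.cosh (v.1.1 e / θ) + Real.cosh (v.1.1 f / θ))) ≤
        1 := by
      rw [Ex_sum]
      have e1 : ∑ f, Ex q u l (fun v => Real.cosh (v.1.1 e / θ) + Real.cosh (v.1.1 f / θ)) ≤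
          ∑ _f : E, (6:ℝ) := by
        refine sum_le_sum fun f _ => ?_
        rw [Ex_add]
        have := hcosh e; have := hcosh f; linarith
      refine (mul_le_mul_of_nonneg_left e1 hδ0).trans ?_
      simp only [sum_const, card_univ, nsmul_eq_mul]
      rw [hδ, Real.exp_neg, mul_right_comm, mul_inv_le_iff₀ (Real.exp_pos _)]
      linarith
    rw [Ex_lin] at m4
    rw [Ex_lin, Ex_lin] at m5
    have n1 := mul_le_mul_of_nonneg_left m1 (show 0 ≤ 1 + η by linarith)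
    have n2 := mul_le_mul_of_nonneg_left m2 (show 0 ≤ 1 - η by linarith)
    have n3 := mul_le_mul_of_nonneg_left m3 (show 0 ≤ C1 by linarith)
    have n4 : η * η * μ ≤ η * μ := by
      rw [mul_assoc]; exact mul_le_of_le_one_left (by positivity) hη1
    have n5 : 0 ≤ η * η * μ := by positivity
    have n6 : 0 ≤ η * μ := by positivity
    rw [abs_le]; constructor <;> nlinarith
  obtain ⟨v, hv⟩ := Ex_exists_le (u := u) hq0 hq1 l
    (fun v => ∑ e, (ξ e * |tr v e| ^ p + 0 * 0 + (-(ξ e * ∑ i ∈ s, q i * |a i e| ^ p))))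
  refine ⟨tr v, ?_, fun e => ?_, ?_⟩
  · simp only [tr]; split_ifs
    · exact v.1.2
    · exact 𝒢.zero_mem
  · simp only [tr]; split_ifs with h
    · exact h e
    · simpa using hM0
  · rw [Ex_sum] at hv
    refine le_trans (le_of_eq (sum_congr rfl fun e _ => by ring)) (hv.trans ?_)
    refine sum_le_sum fun e _ => ?_
    rw [Ex_lin (Ψ := fun _ => 0)]
    have e1 := mul_le_mul_of_nonneg_left (hkey e) (abs_nonneg (ξ e))
    rw [← abs_mul] at e1
    have e2 := le_abs_self (ξ e * (Ex q u l (fun v => |tr v e| ^ p) - ∑ i ∈ s, q i * |a i e| ^ p))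
    linarith

end Crest.Agent.R232
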